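import Vale.Agent.P006.H2.Fd
import Vale.Agent.P006.CR.GaussSum

/-!
P006, block FC: the basic inequality
`∑_ν |∫ F_f e_ν|^2 ≤ strips + tail`.
-/

open MeasureTheory Set Filter
open scoped Topology

namespace Vale.Agent.P006.FC

open Vale.Agent.P006.KER (R3 hmeas posm)

lemma gs_eq (ν : O) {d : O} (hd : d ≠ 0) : gs ν d = Vale.Agent.P006.gs ν d := by
  have : NeZero d := ⟨hd⟩
  rw [gs, tsum_fintype, Vale.Agent.P006.gs_eq_sum]

lemma norm_gs_le (ν : O) (d : PD) : ‖gs ν d‖ ≤ N (d : O) := by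
  have : NeZero (d : O) := ⟨d.2.ne_zero⟩
  rw [gs, tsum_fintype]
  calc ‖∑ x : Rs (d : O), chi d x * psi d (rs d ν * x)‖ ≤ ∑ x : Rs (d : O), (1 : ℝ) := by
        refine norm_sum_le_of_le _ fun x _ => ?_
        obtain ⟨m, rfl⟩ := rs_surj (d : O) x
        rw [norm_mul, ← map_mul, psi_rs, norm_e, mul_one, chi_rs]
        exact norm_sym_le _ _
    _ = N (d : O) := by rw [Finset.sum_const, Finset.card_univ, fcard_Rs]; simp

lemma N_pos_PD (d : PD) : (0 : ℝ) < N (d : O) := by exact_mod_cast N_pos d.2.ne_zero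

lemma summable_PD {β : ℝ} (hβ : 1 < β) : Summable fun d : PD => (N (d : O) : ℝ) ^ (-β) :=
  (V2.summable_N hβ).comp_injective Subtype.val_injective

lemma mono_km {I : Set ℝ} (hI0 : I ⊆ Ioi 0) : km I ≤ km (Ioi 0) := Measure.restrict_mono hI0 le_rfl

lemma mH_le {I : Set ℝ} (hI0 : I ⊆ Ioi 0) : mH (km I) ≤ hmeas := by
  have h : km I ≤ km (Ioi 0) := mono_km hI0
  refine Measure.le_iff.2 fun s hs => ?_
  rw [hmeas_eq, Measure.prod_apply hs, Measure.prod_apply hs]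
  exact lintegral_mono fun x => h _

lemma integrable_fd' {f : ℝ → ℂ} (hf : CLf f) {I : Set ℝ} (hI0 : I ⊆ Ioi 0) (d : PD) :
    Integrable (fd f (N (d : O))) (mH (km I)) :=
  (integrable_fd hf (N_pos_PD d)).mono_measure (mH_le hI0)

lemma summable_fd {f : ℝ → ℂ} (hf : CLf f) {I : Set ℝ} (hI0 : I ⊆ Ioi 0) :
    Summable fun d : PD => (N (d : O) : ℝ) * ∫ p, ‖fd f (N (d : O)) p‖ ∂(mH (km I)) := by
  obtain ⟨C, hC0, hC⟩ := integral_norm_fd_le hf
  refine Summable.of_nonneg_of_le (fun d => by positivity) (fun d => ?_)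
    ((summable_PD (β := 2) (by norm_num)).mul_left C)
  have hd := N_pos_PD d
  have h1 : ∫ p, ‖fd f (N (d : O)) p‖ ∂(mH (km I)) ≤ ∫ p, ‖fd f (N (d : O)) p‖ ∂hmeas :=
    integral_mono_measure (mH_le hI0) (Eventually.of_forall fun p => norm_nonneg _)
      (integrable_fd hf hd).norm
  calc (N (d : O) : ℝ) * ∫ p, ‖fd f (N (d : O)) p‖ ∂(mH (km I))
      ≤ (N (d : O) : ℝ) * (C * ((N (d : O) : ℝ) ^ 3)⁻¹) := by
        gcongr
        exact h1.trans (hC _ hd)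
    _ = C * (N (d : O) : ℝ) ^ (-(2 : ℝ)) := by
        rw [Real.rpow_neg hd.le, Real.rpow_two]; field_simp

/-- UNFOLDING for a profile in the class, over any range of heights. -/
theorem hasSum_coeff' {f : ℝ → ℂ} (hf : CLf f) {I : Set ℝ} (hI0 : I ⊆ Ioi 0) (ν : O) :
    HasSum (fun d : PD => gs ν d * ∫ p, fd f (N (d : O)) p * En ν p.1 ∂(mH (km I)))
      (∫ p, FS f p * En ν p.1 ∂(mB (km I))) := by
  have h := hasSum_coeff (κ := km I) (f := f) (fun d => integrable_fd' hf hI0 d)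
    (summable_fd hf hI0) (h := fun _ => 1) measurable_const (C := 1) (fun _ => by simp) ν
  simpa only [one_mul] using h

theorem integrable_FS' {f : ℝ → ℂ} (hf : CLf f) : Integrable (FS f) (mB (km (Ioi 0))) :=
  integrable_FS (κ := km (Ioi 0)) (fun d => integrable_fd' hf (le_refl _) d)
    (summable_fd hf (le_refl _))

/-- the tail `∑_d N(d) |∫_{y > Y} f(N(d) Q) e_ν|` -/
noncomputable def tail (f : ℝ → ℂ) (Y : ℝ) (ν : O) : ℝ :=
  ∑' d : PD, (N (d : O) : ℝ) * ‖∫ p, fd f (N (d : O)) p * En ν p.1 ∂(mH (km (Ioi Y)))‖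

lemma norm_integral_fd_le {f : ℝ → ℂ} (n : ℝ) (I : Set ℝ) (ν : O) :
    ‖∫ p, fd f n p * En ν p.1 ∂(mH (km I))‖ ≤ ∫ p, ‖fd f n p‖ ∂(mH (km I)) := by
  refine (norm_integral_le_integral_norm _).trans (le_of_eq ?_)
  congr 1; funext p
  rw [norm_mul, norm_En, mul_one]

lemma summable_tail {f : ℝ → ℂ} (hf : CLf f) {Y : ℝ} (hY : 0 ≤ Y) (ν : O) :
    Summable fun d : PD => (N (d : O) : ℝ) *
      ‖∫ p, fd f (N (d : O)) p * En ν p.1 ∂(mH (km (Ioi Y)))‖ := by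
  refine Summable.of_nonneg_of_le (fun d => by positivity) (fun d => ?_)
    (summable_fd hf (I := Ioi Y) (Ioi_subset_Ioi hY))
  exact mul_le_mul_of_nonneg_left (norm_integral_fd_le _ _ _) (Nat.cast_nonneg _)

lemma norm_tail_le {f : ℝ → ℂ} (hf : CLf f) {Y : ℝ} (hY : 0 ≤ Y) (ν : O) :
    ‖∫ p, FS f p * En ν p.1 ∂(mB (km (Ioi Y)))‖ ≤ tail f Y ν := by
  rw [← (hasSum_coeff' hf (Ioi_subset_Ioi hY) ν).tsum_eq, tail]
  refine (norm_tsum_le_tsum_norm ?_).trans ?_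
  · refine Summable.of_nonneg_of_le (fun d => norm_nonneg _) (fun d => ?_) (summable_tail hf hY ν)
    rw [norm_mul]
    exact mul_le_mul_of_nonneg_right (norm_gs_le ν d) (norm_nonneg _)
  · refine Summable.tsum_le_tsum (fun d => ?_) ?_ (summable_tail hf hY ν)
    · rw [norm_mul]
      exact mul_le_mul_of_nonneg_right (norm_gs_le ν d) (norm_nonneg _)
    · refine Summable.of_nonneg_of_le (fun d => norm_nonneg _) (fun d => ?_) (summable_tail hf hY ν)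
      rw [norm_mul]
      exact mul_le_mul_of_nonneg_right (norm_gs_le ν d) (norm_nonneg _)

lemma split_heights {F : ℂ × ℝ → ℂ} (hF : Integrable F (mB (km (Ioi 0)))) {Y : ℝ} (hY : 0 < Y)
    (ν : O) : ∫ p, F p * En ν p.1 ∂(mB (km (Ioi 0))) =
      ∫ p, F p * En ν p.1 ∂(mB (km (Ioc 0 Y))) + ∫ p, F p * En ν p.1 ∂(mB (km (Ioi Y))) := by
  rw [integral_eq_co hF measurableSet_Ioi (le_refl _),
    integral_eq_co hF measurableSet_Ioc Ioc_subset_Ioi_self,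
    integral_eq_co hF measurableSet_Ioi (Ioi_subset_Ioi hY.le),
    ← setIntegral_union (Set.Ioc_disjoint_Ioi le_rfl) measurableSet_Ioi
      ((integrableOn_co hF ν).mono_set Ioc_subset_Ioi_self)
      ((integrableOn_co hF ν).mono_set (Ioi_subset_Ioi hY.le)), Ioc_union_Ioi_eq_Ioi hY.le]

/-- **basic inequality** -/
theorem basic_ineq {f : ℝ → ℂ} (hf : CLf f) {A : ℝ} (hA : 0 ≤ A)
    (hb : ∀ a : ℝ, 0 < a → ∫⁻ p, ‖FS f p‖ₑ ^ 2 ∂(mB (km (Ioc a (2 * a)))) ≤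
      ENNReal.ofReal (A * (a ^ 3 + a))) {Y : ℝ} (hY : 0 < Y) (S : Finset O) :
    ∑ ν ∈ S, ‖∫ p, FS f p * En ν p.1 ∂(mB (km (Ioi 0)))‖ ^ 2 ≤
      2 * (volume.real B * A * (Y ^ 4 + Y ^ 2)) + 2 * ∑ ν ∈ S, tail f Y ν ^ 2 := by
  have hF := integrable_FS' hf
  have h1 := strip_sum hF hA hb hY S
  calc ∑ ν ∈ S, ‖∫ p, FS f p * En ν p.1 ∂(mB (km (Ioi 0)))‖ ^ 2
      ≤ ∑ ν ∈ S, (2 * ‖∫ p, FS f p * En ν p.1 ∂(mB (km (Ioc 0 Y)))‖ ^ 2 +
          2 * tail f Y ν ^ 2) := by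
        refine Finset.sum_le_sum fun ν _ => ?_
        rw [split_heights hF hY ν]
        have h2 := norm_tail_le hf hY.le ν
        have h3 := norm_add_le (∫ p, FS f p * En ν p.1 ∂(mB (km (Ioc 0 Y))))
          (∫ p, FS f p * En ν p.1 ∂(mB (km (Ioi Y))))
        have h4 := norm_nonneg (∫ p, FS f p * En ν p.1 ∂(mB (km (Ioi Y))))
        have h5 := norm_nonneg (∫ p, FS f p * En ν p.1 ∂(mB (km (Ioc 0 Y))))
        set x := ‖∫ p, FS f p * En ν p.1 ∂(mB (km (Ioc 0 Y)))‖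
        set y := ‖∫ p, FS f p * En ν p.1 ∂(mB (km (Ioi Y)))‖
        set w := ‖∫ p, FS f p * En ν p.1 ∂(mB (km (Ioc 0 Y))) +
          ∫ p, FS f p * En ν p.1 ∂(mB (km (Ioi Y)))‖ with hw
        have h6 : 0 ≤ w := norm_nonneg _
        nlinarith [sq_nonneg (x - tail f Y ν)]
    _ = 2 * (∑ ν ∈ S, ‖∫ p, FS f p * En ν p.1 ∂(mB (km (Ioc 0 Y)))‖ ^ 2) +
          2 * ∑ ν ∈ S, tail f Y ν ^ 2 := by
        rw [Finset.sum_add_distrib, Finset.mul_sum, Finset.mul_sum]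
    _ ≤ _ := by gcongr

end Vale.Agent.P006.FC
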