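import Mathlib.MeasureTheory.Integral.DominatedConvergence

/-!
P006, block FC: integrability of a sum of functions with summable `L¹` norms.
-/

open MeasureTheory Set Filter
open scoped ENNReal NNReal

namespace Vale.Agent.P006.FC

variable {α ι : Type*} [MeasurableSpace α] {μ : Measure α} [Countable ι]

lemma lintegral_tsum_lt_top {F : ι → α → ℂ} (hF_int : ∀ i, Integrable (F i) μ)
    (hF_sum : Summable fun i => ∫ a, ‖F i a‖ ∂μ) :
    ∫⁻ a, ∑' i, ‖F i a‖ₑ ∂μ < ∞ := by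
  rw [lintegral_tsum fun i => (hF_int i).1.enorm]
  have (i : ι) : ∫⁻ a : α, ‖F i a‖ₑ ∂μ = ‖∫ a, ‖F i a‖ ∂μ‖ₑ := by
    dsimp [enorm]
    rw [lintegral_coe_eq_integral _ (hF_int i).norm, ENNReal.coe_nnreal_eq, coe_nnnorm,
      Real.norm_of_nonneg (integral_nonneg (fun a ↦ norm_nonneg (F i a)))]
    simp only [coe_nnnorm]
  rw [funext this]
  exact lt_top_iff_ne_top.2 (ENNReal.tsum_coe_ne_top_iff_summable.2 <|
    NNReal.summable_coe.1 hF_sum.abs)

lemma ae_summable {F : ι → α → ℂ} (hF_int : ∀ i, Integrable (F i) μ)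
    (hF_sum : Summable fun i => ∫ a, ‖F i a‖ ∂μ) :
    ∀ᵐ a ∂μ, Summable fun i => ‖F i a‖ := by
  have h := ae_lt_top' (AEMeasurable.ennreal_tsum fun i => (hF_int i).1.enorm)
    (lintegral_tsum_lt_top hF_int hF_sum).ne
  filter_upwards [h] with a ha
  have h2 : Summable fun i => ‖F i a‖₊ := ENNReal.tsum_coe_ne_top_iff_summable.1 ha.ne
  exact NNReal.summable_coe.2 h2

theorem integrable_tsum_of_norm {F : ι → α → ℂ} (hF_int : ∀ i, Integrable (F i) μ)
    (hF_sum : Summable fun i => ∫ a, ‖F i a‖ ∂μ) :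
    Integrable (fun a => ∑' i, F i a) μ := by
  have hs := ae_summable hF_int hF_sum
  refine ⟨?_, ?_⟩
  · refine aestronglyMeasurable_of_tendsto_ae (atTop : Filter (Finset ι))
      (f := fun s a => ∑ i ∈ s, F i a) (fun s => ?_) ?_
    · exact Finset.aestronglyMeasurable_fun_sum _ fun i _ => (hF_int i).1
    · filter_upwards [hs] with a ha
      exact ha.of_norm.hasSum
  · refine lt_of_le_of_lt (lintegral_mono_ae ?_) (lintegral_tsum_lt_top hF_int hF_sum)
    filter_upwards [hs] with a ha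
    have h2 : Summable fun i => ‖F i a‖₊ := NNReal.summable_coe.1 ha
    have h3 : ‖∑' i, F i a‖₊ ≤ ∑' i, ‖F i a‖₊ := nnnorm_tsum_le h2
    calc ‖∑' i, F i a‖ₑ ≤ ((∑' i, ‖F i a‖₊ : ℝ≥0) : ℝ≥0∞) := by
          simpa [enorm] using h3
      _ = ∑' i, ‖F i a‖ₑ := by rw [ENNReal.coe_tsum h2]; rfl

end Vale.Agent.P006.FC
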