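import Vale.Agent.P006.H2.Unfold
import Vale.Agent.P006.H2.Tsum

/-!
P006, block FC: the Fourier coefficients of
`F_f(z,y) = E_f(S(z,y)) = ∑_{(d,m)} (3m/d) f(N(d)(|z-3m/d|^2+y^2)/y)` are `∑_d g(ν,d) K(d)`.
-/

open MeasureTheory Set

namespace Vale.Agent.P006.FC

/-- index set: primary `d` and `m : O` -/
abbrev PD : Type := {d : O // Primary d}

/-- the function `p ↦ f(N(d)(|z|^2+y^2)/y)` on the upper half space -/
noncomputable def fd (f : ℝ → ℂ) (n : ℝ) (p : ℂ × ℝ) : ℂ := f (n * (‖p.1‖ ^ 2 + p.2 ^ 2) / p.2)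

/-- the term of index `(d,m)` -/
noncomputable def term (f : ℝ → ℂ) (d m : O) (p : ℂ × ℝ) : ℂ :=
  toC (sym (3 * m) d) * fd f (N d) (p.1 - 3 * toC m / toC d, p.2)

/-- the series `E_f(S(z,y))` -/
noncomputable def FS (f : ℝ → ℂ) (p : ℂ × ℝ) : ℂ := ∑' i : PD × O, term f i.1 i.2 p

/-- the upper half space part of the product measure -/
noncomputable abbrev mH (κ : Measure ℝ) : Measure (ℂ × ℝ) := (volume : Measure ℂ).prod κ

/-- the measure on the strip `B × ℝ` -/
noncomputable abbrev mB (κ : Measure ℝ) : Measure (ℂ × ℝ) := ((volume : Measure ℂ).restrict B).prod κ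

variable {κ : Measure ℝ} [SFinite κ] {f : ℝ → ℂ}

/-- the integrand on the upper half space for one `d` -/
noncomputable def Psi (f : ℝ → ℂ) (h : ℝ → ℂ) (ν : O) (n : ℝ) (p : ℂ × ℝ) : ℂ :=
  h p.2 * fd f n p * En ν p.1

lemma term_eq (h : ℝ → ℂ) (ν : O) (d m : O) (p : ℂ × ℝ) :
    h p.2 * term f d m p * En ν p.1 =
      cf ν d m * Psi f h ν (N d) (p.1 - 3 * toC m / toC d, p.2) := by
  have e1 : En ν p.1 = En ν (p.1 - 3 * toC m / toC d) * En ν (3 * toC m / toC d) := by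
    rw [← En_add]; congr 1; ring
  rw [e1, term, cf, Psi]
  ring

omit [SFinite κ] in
lemma integrable_Psi {n : ℝ} (hf : Integrable (fd f n) (mH κ)) {h : ℝ → ℂ}
    (hm : Measurable h) {C : ℝ} (hC : ∀ y, ‖h y‖ ≤ C) (ν : O) :
    Integrable (Psi f h ν n) (mH κ) := by
  have h1 : Integrable (fun p : ℂ × ℝ => (h p.2 * En ν p.1) * fd f n p) (mH κ) := by
    refine hf.bdd_mul (c := C) ?_ (Filter.Eventually.of_forall fun p => ?_)
    · exact ((hm.comp measurable_snd).mul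
        ((continuous_En ν).measurable.comp measurable_fst)).aestronglyMeasurable
    · rw [norm_mul, norm_En, mul_one]; exact hC _
  refine h1.congr (Filter.Eventually.of_forall fun p => ?_)
  simp only [Psi]; ring

lemma norm_Psi_le {C : ℝ} {h : ℝ → ℂ} (hC : ∀ y, ‖h y‖ ≤ C) (ν : O) (n : ℝ) (p : ℂ × ℝ) :
    ‖Psi f h ν n p‖ ≤ C * ‖fd f n p‖ := by
  rw [Psi, norm_mul, norm_mul, norm_En, mul_one]
  exact mul_le_mul_of_nonneg_right (hC _) (norm_nonneg _)

lemma tsum_norm_cf_le {ν d : O} (hd : d ≠ 0) : ∑' x : Rs d, ‖cf ν d (rep d x)‖ ≤ N d := by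
  have : NeZero d := ⟨hd⟩
  rw [tsum_fintype]
  calc ∑ x : Rs d, ‖cf ν d (rep d x)‖ ≤ ∑ _x : Rs d, (1 : ℝ) :=
        Finset.sum_le_sum fun x _ => norm_cf_le _ _ _
    _ = N d := by rw [Finset.sum_const, Finset.card_univ, fcard_Rs]; simp

/-- the family of integrands indexed by `(d,m)` -/
noncomputable def fam (f h : ℝ → ℂ) (ν : O) (i : PD × O) (p : ℂ × ℝ) : ℂ :=
  h p.2 * term f i.1 i.2 p * En ν p.1

lemma integrable_fam (hf : ∀ d : PD, Integrable (fd f (N (d : O))) (mH κ)) {h : ℝ → ℂ}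
    (hm : Measurable h) {C : ℝ} (hC : ∀ y, ‖h y‖ ≤ C) (ν : O) (i : PD × O) :
    Integrable (fam f h ν i) (mB κ) := by
  have h1 := integrable_B (integrable_shift (integrable_Psi (hf i.1) hm hC ν)
    (3 * toC i.2 / toC (i.1 : O)))
  refine (h1.const_mul (cf ν i.1 i.2)).congr (Filter.Eventually.of_forall fun p => ?_)
  simp only [fam, term_eq]

lemma summable_fam (hf : ∀ d : PD, Integrable (fd f (N (d : O))) (mH κ))
    (hs : Summable fun d : PD => (N (d : O) : ℝ) * ∫ p, ‖fd f (N (d : O)) p‖ ∂(mH κ)) {h : ℝ → ℂ}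
    (hm : Measurable h) {C : ℝ} (hC : ∀ y, ‖h y‖ ≤ C) (ν : O) :
    Summable fun i : PD × O => ∫ p, ‖fam f h ν i p‖ ∂(mB κ) := by
  have hC0 : 0 ≤ C := (norm_nonneg _).trans (hC 0)
  have key : ∀ d : PD, HasSum (fun m : O => ∫ p, ‖fam f h ν (d, m) p‖ ∂(mB κ))
      ((∑' x : Rs (d : O), ‖cf ν d (rep d x)‖) * ∫ p, ‖Psi f h ν (N (d : O)) p‖ ∂(mH κ)) := by
    intro d
    have h1 := hasSum_periodic_norm d.2.ne_zero (b := cf ν d) (cf_periodic d.2.ne_zero)
      (integrable_Psi (hf d) hm hC ν)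
    have e : (fun m : O => ∫ p, ‖cf ν d m * Psi f h ν (N (d : O))
        (p.1 - 3 * toC m / toC d, p.2)‖ ∂(mB κ)) = fun m : O => ∫ p, ‖fam f h ν (d, m) p‖ ∂(mB κ) := by
      funext m
      congr 1; funext p
      rw [fam, term_eq]
    rw [e] at h1
    exact h1
  rw [summable_prod_of_nonneg fun i => integral_nonneg fun p => norm_nonneg _]
  refine ⟨fun d => (key d).summable, ?_⟩
  simp_rw [fun d => (key d).tsum_eq]
  refine Summable.of_nonneg_of_le (fun d => ?_) (fun d => ?_) (hs.mul_left C)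
  · exact mul_nonneg (tsum_nonneg fun x => norm_nonneg _) (integral_nonneg fun p => norm_nonneg _)
  · have h2 : ∫ p, ‖Psi f h ν (N (d : O)) p‖ ∂(mH κ) ≤
        C * ∫ p, ‖fd f (N (d : O)) p‖ ∂(mH κ) := by
      rw [← integral_const_mul]
      exact integral_mono (integrable_Psi (hf d) hm hC ν).norm ((hf d).norm.const_mul C)
        fun p => norm_Psi_le hC ν _ p
    calc _ ≤ (N (d : O) : ℝ) * (C * ∫ p, ‖fd f (N (d : O)) p‖ ∂(mH κ)) :=
          mul_le_mul (tsum_norm_cf_le d.2.ne_zero) h2 (integral_nonneg fun p => norm_nonneg _)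
            (Nat.cast_nonneg _)
      _ = _ := by ring

/-- UNFOLDING: the weighted Fourier coefficient of `E_f ∘ S` -/
theorem hasSum_coeff (hf : ∀ d : PD, Integrable (fd f (N (d : O))) (mH κ))
    (hs : Summable fun d : PD => (N (d : O) : ℝ) * ∫ p, ‖fd f (N (d : O)) p‖ ∂(mH κ)) {h : ℝ → ℂ}
    (hm : Measurable h) {C : ℝ} (hC : ∀ y, ‖h y‖ ≤ C) (ν : O) :
    HasSum (fun d : PD => gs ν d * ∫ p, h p.2 * fd f (N (d : O)) p * En ν p.1 ∂(mH κ))
      (∫ p, h p.2 * FS f p * En ν p.1 ∂(mB κ)) := by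
  have h1 := hasSum_integral_of_summable_integral_norm (integrable_fam hf hm hC ν)
    (summable_fam hf hs hm hC ν)
  have h2 : (∫ p, ∑' i, fam f h ν i p ∂(mB κ)) = ∫ p, h p.2 * FS f p * En ν p.1 ∂(mB κ) := by
    refine integral_congr_ae (Filter.Eventually.of_forall fun p => ?_)
    simp only [fam, FS]
    rw [tsum_mul_right, tsum_mul_left]
  rw [h2] at h1
  have h3 : ∀ d : PD, HasSum (fun m : O => ∫ p, fam f h ν (d, m) p ∂(mB κ))
      (gs ν d * ∫ p, h p.2 * fd f (N (d : O)) p * En ν p.1 ∂(mH κ)) := by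
    intro d
    have h4 := hasSum_periodic d.2.ne_zero (b := cf ν d) (cf_periodic d.2.ne_zero)
      (integrable_Psi (hf d) hm hC ν)
    rw [sum_cf d.2] at h4
    have e : (fun m : O => ∫ p, cf ν d m * Psi f h ν (N (d : O)) (p.1 - 3 * toC m / toC d, p.2)
        ∂(mB κ)) = fun m : O => ∫ p, fam f h ν (d, m) p ∂(mB κ) := by
      funext m
      congr 1; funext p
      rw [fam, term_eq]
    rw [e] at h4
    exact h4
  exact h1.prod_fiberwise h3

theorem integrable_FS (hf : ∀ d : PD, Integrable (fd f (N (d : O))) (mH κ))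
    (hs : Summable fun d : PD => (N (d : O) : ℝ) * ∫ p, ‖fd f (N (d : O)) p‖ ∂(mH κ)) :
    Integrable (FS f) (mB κ) := by
  have h1 := integrable_tsum_of_norm (integrable_fam hf (h := fun _ => 1) measurable_const
    (C := 1) (fun _ => by simp) 0) (summable_fam hf hs measurable_const (C := 1)
    (fun _ => by simp) 0)
  refine h1.congr (Filter.Eventually.of_forall fun p => ?_)
  simp only [fam, FS]
  congr 1; funext i
  simp [En]

end Vale.Agent.P006.FC
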