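import Mathlib.MeasureTheory.Function.L2Space
import Mathlib.Analysis.InnerProductSpace.Orthonormal
import Vale.Agent.P006.H2.Coeff

/-!
P006, block FC: orthogonality of the characters `En` on `B` and Bessel's inequality on strips.
-/

open MeasureTheory Set

namespace Vale.Agent.P006.FC

lemma norm_le_of_mem_B {z : ℂ} (hz : z ∈ B) : ‖z‖ ≤ 6 := by
  rw [eq_of_coord z]
  obtain ⟨⟨h1, h2⟩, h3, h4⟩ := hz
  have ho : ‖omC‖ = 1 := by
    have h := omC_cube
    have h2 : ‖omC‖ ^ 3 = 1 := by rw [← norm_pow, h, norm_one]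
    exact (pow_eq_one_iff_of_nonneg (norm_nonneg _) (by norm_num)).1 h2
  calc ‖3 * ((cX z : ℂ) + (cY z : ℂ) * omC)‖ ≤ 3 * (‖(cX z : ℂ)‖ + ‖(cY z : ℂ) * omC‖) := by
        rw [norm_mul, Complex.norm_ofNat]
        gcongr
        exact norm_add_le _ _
    _ ≤ 3 * (1 + 1) := by
        rw [norm_mul, ho, Complex.norm_real, Complex.norm_real, Real.norm_of_nonneg h1,
          Real.norm_of_nonneg h3]
        gcongr
        linarith
    _ = 6 := by norm_num

lemma volume_B_lt_top : volume B < ⊤ := by
  have h : B ⊆ Metric.closedBall (0 : ℂ) 6 := fun z hz => by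
    rw [mem_closedBall_zero_iff]; exact norm_le_of_mem_B hz
  exact lt_of_le_of_lt (measure_mono h) measure_closedBall_lt_top

instance : IsFiniteMeasure ((volume : Measure ℂ).restrict B) :=
  ⟨by rw [Measure.restrict_apply_univ]; exact volume_B_lt_top⟩

/-- the integral over `B` of a periodic function is translation invariant -/
theorem integral_B_shift {g : ℂ → ℂ} (hg : Continuous g) {C : ℝ} (hC : ∀ z, ‖g z‖ ≤ C)
    (hper : ∀ z (t : O), g (z - 3 * toC t) = g z) (w : ℂ) :
    ∫ z in B, g (z + w) = ∫ z in B, g z := by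
  have hint : IntegrableOn g B := by
    refine Measure.integrableOn_of_bounded (M := C) volume_B_lt_top.ne
      hg.aestronglyMeasurable (Filter.Eventually.of_forall hC)
  -- partition of `B` by the translates of `B + w`
  have hm : ∀ t : O, MeasurableSet (B ∩ {z : ℂ | z - w ∈ Bt t}) := fun t =>
    measurableSet_B.inter ((measurableSet_Bt t).preimage (measurable_id.sub_const w))
  have hd : Pairwise (Function.onFun Disjoint fun t : O => B ∩ {z : ℂ | z - w ∈ Bt t}) := by
    intro s t hst
    rw [Function.onFun, Set.disjoint_left]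
    rintro z ⟨-, hs⟩ ⟨-, ht⟩
    exact Set.disjoint_left.1 (pairwise_Bt hst) hs ht
  have hU : (⋃ t : O, B ∩ {z : ℂ | z - w ∈ Bt t}) = B := by
    rw [← inter_iUnion]
    refine inter_eq_left.2 fun z _ => ?_
    have : z - w ∈ ⋃ t, Bt t := by rw [iUnion_Bt]; trivial
    obtain ⟨t, ht⟩ := mem_iUnion.1 this
    exact mem_iUnion.2 ⟨t, ht⟩
  have h1 := hasSum_integral_iUnion (μ := volume) (f := g) hm hd (by rw [hU]; exact hint)
  rw [hU] at h1
  -- folding
  have hBw : MeasurableSet {z : ℂ | z - w ∈ B} := measurableSet_B.preimage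
    (measurable_id.sub_const w)
  have hvol : volume {z : ℂ | z - w ∈ B} = volume B :=
    (measurePreserving_sub_right volume w).measure_preimage measurableSet_B.nullMeasurableSet
  have hint2 : Integrable ({z : ℂ | z - w ∈ B}.indicator g) := by
    rw [integrable_indicator_iff hBw]
    refine Measure.integrableOn_of_bounded (M := C) (by rw [hvol]; exact volume_B_lt_top.ne)
      hg.aestronglyMeasurable (Filter.Eventually.of_forall hC)
  have h2 := hasSum_fold hint2
  have e1 : ∫ z, {z : ℂ | z - w ∈ B}.indicator g z = ∫ z in B, g (z + w) := by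
    rw [integral_indicator hBw]
    have hp : MeasurePreserving (fun z : ℂ => z + w) volume volume :=
      measurePreserving_add_right volume _
    rw [← hp.setIntegral_preimage_emb (MeasurableEquiv.addRight w).measurableEmbedding]
    congr 2
    ext z; simp
  have e2 : (fun t : O => ∫ z in B, {z : ℂ | z - w ∈ B}.indicator g (z - 3 * toC t)) =
      fun t : O => ∫ z in B ∩ {z : ℂ | z - w ∈ Bt t}, g z := by
    funext t
    have hs : MeasurableSet {z : ℂ | z - w ∈ Bt t} :=
      (measurableSet_Bt t).preimage (measurable_id.sub_const w)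
    rw [← setIntegral_indicator hs]
    congr 1; funext z
    by_cases h : z - w ∈ Bt t
    · rw [indicator_of_mem (show z ∈ {z : ℂ | z - w ∈ Bt t} from h), indicator_of_mem, hper]
      have : z - w - 3 * toC t ∈ B := h
      rw [sub_right_comm] at this
      exact this
    · rw [indicator_of_notMem (show z ∉ {z : ℂ | z - w ∈ Bt t} from h), indicator_of_notMem]
      intro h'
      apply h
      have h'' : z - 3 * toC t - w ∈ B := h'
      rw [sub_right_comm] at h''
      exact h''
  rw [e1, e2] at h2
  exact h2.unique h1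

lemma En_sub (ν ν' : O) (z : ℂ) : En (ν - ν') z = En ν z * (starRingEnd ℂ) (En ν' z) := by
  rw [En, En, En, ← e_neg, ← e_add, ← TrC_neg, ← TrC_add]
  congr 2
  rw [map_sub]; ring

lemma En_periodic' (ν t : O) (z : ℂ) : En ν (z - 3 * toC t) = En ν z := by
  rw [← En_periodic ν t (z - 3 * toC t)]; congr 1; ring

theorem integral_En_of_ne {δ : O} (hδ : δ ≠ 0) : ∫ z in B, En δ z = 0 := by
  have hδ' : toC δ ≠ 0 := by simpa using hδ
  have h := integral_B_shift (continuous_En δ) (C := 1) (fun z => (norm_En δ z).le)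
    (fun z t => En_periodic' δ t z) (toC lam ^ 3 / (4 * toC δ))
  simp_rw [En_add] at h
  rw [integral_mul_const] at h
  have h2 : En δ (toC lam ^ 3 / (4 * toC δ)) = -1 := by
    have hl := toC_lam_ne
    have e1 : toC δ * (toC lam ^ 3 / (4 * toC δ)) / toC lam ^ 3 = ((1 / 4 : ℝ) : ℂ) := by
      push_cast; field_simp
    rw [En, e1, TrC, Complex.ofReal_re, e]
    rw [show (2 * Real.pi * Complex.I * ((2 * (1 / 4) : ℝ) : ℂ)) = Real.pi * Complex.I by
      push_cast; ring, Complex.exp_pi_mul_I]
  rw [h2] at h
  have h3 : 2 * ∫ z in B, En δ z = 0 := by linear_combination -h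
  simpa using h3

theorem integral_En (ν ν' : O) : ∫ z in B, En ν z * (starRingEnd ℂ) (En ν' z) =
    if ν = ν' then ((volume.real B : ℝ) : ℂ) else 0 := by
  simp_rw [← En_sub]
  split_ifs with h
  · subst h
    simp [En]
  · exact integral_En_of_ne (sub_ne_zero.2 h)

end Vale.Agent.P006.FC
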