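import Vale.Agent.P006.H2.Bessel

/-!
P006, block FC: Bessel's inequality on strips.
-/

open MeasureTheory Set

namespace Vale.Agent.P006.FC

open scoped InnerProductSpace in
lemma bessel_abstract {E ι : Type*} [NormedAddCommGroup E] [InnerProductSpace ℂ E]
    [DecidableEq ι] {v : ι → E} {V : ℝ} (hV : 0 ≤ V)
    (hv : ∀ i j, ⟪v i, v j⟫_ℂ = if i = j then (V : ℂ) else 0) (S : Finset ι) (x : E) :
    ∑ i ∈ S, ‖⟪v i, x⟫_ℂ‖ ^ 2 ≤ V * ‖x‖ ^ 2 := by
  rcases hV.eq_or_lt with h0 | h0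
  · have h1 : ∀ i, v i = 0 := fun i => by
      have := hv i i
      rw [if_pos rfl, ← h0, Complex.ofReal_zero, inner_self_eq_zero] at this
      exact this
    simp [h1, ← h0]
  · have hs : 0 < Real.sqrt V := Real.sqrt_pos.2 h0
    have hsq : Real.sqrt V * Real.sqrt V = V := Real.mul_self_sqrt hV
    have ho : Orthonormal ℂ (fun i => ((Real.sqrt V : ℝ) : ℂ)⁻¹ • v i) := by
      rw [orthonormal_iff_ite]
      intro i j
      rw [inner_smul_left, inner_smul_right, hv, ← Complex.ofReal_inv, Complex.conj_ofReal]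
      split_ifs
      · rw [← Complex.ofReal_mul, ← Complex.ofReal_mul, ← Complex.ofReal_one]
        congr 1
        field_simp
        rw [sq, hsq]
      · simp
    have h := ho.sum_inner_products_le (x := x) (s := S)
    have e : ∀ i, ‖⟪((Real.sqrt V : ℝ) : ℂ)⁻¹ • v i, x⟫_ℂ‖ ^ 2 = V⁻¹ * ‖⟪v i, x⟫_ℂ‖ ^ 2 := by
      intro i
      rw [inner_smul_left, norm_mul, mul_pow, ← Complex.ofReal_inv, Complex.conj_ofReal,
        Complex.norm_real, Real.norm_of_nonneg (by positivity), inv_pow, sq (Real.sqrt V), hsq]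
    simp_rw [e, ← Finset.mul_sum] at h
    rw [inv_mul_le_iff₀ h0] at h
    exact h

variable {κ : Measure ℝ} [IsFiniteMeasure κ]

lemma memLp_En (ν : O) : MemLp (fun p : ℂ × ℝ => (starRingEnd ℂ) (En ν p.1)) 2 (mB κ) := by
  refine MemLp.of_bound (C := 1) ?_ (Filter.Eventually.of_forall fun p => ?_)
  · exact ((Complex.continuous_conj.comp (continuous_En ν)).comp
      continuous_fst).aestronglyMeasurable
  · rw [RCLike.norm_conj, norm_En]

lemma integral_En2 (ν ν' : O) :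
    ∫ p : ℂ × ℝ, En ν p.1 * (starRingEnd ℂ) (En ν' p.1) ∂(mB κ) =
      if ν = ν' then ((volume.real B * κ.real univ : ℝ) : ℂ) else 0 := by
  have h := integral_prod_mul (μ := (volume : Measure ℂ).restrict B) (ν := κ)
    (fun z => En ν z * (starRingEnd ℂ) (En ν' z)) (fun _ => (1 : ℂ))
  simp only [mul_one] at h
  rw [h, integral_En]
  split_ifs
  · simp
  · simp

/-- Bessel's inequality on the strip `B × κ` -/
theorem bessel_strip {F : ℂ × ℝ → ℂ} (hF : MemLp F 2 (mB κ)) (S : Finset O) :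
    ∑ ν ∈ S, ‖∫ p, F p * En ν p.1 ∂(mB κ)‖ ^ 2 ≤
      (volume.real B * κ.real univ) * ∫ p, ‖F p‖ ^ 2 ∂(mB κ) := by
  classical
  have h := bessel_abstract (E := Lp ℂ 2 (mB κ)) (ι := O)
    (v := fun ν => (memLp_En ν).toLp _) (V := volume.real B * κ.real univ) (by positivity)
    (fun i j => by
      rw [L2.inner_def]
      rw [show (∫ a, inner ℂ ((memLp_En i).toLp (fun p : ℂ × ℝ => (starRingEnd ℂ) (En i p.1)) a)
        ((memLp_En j).toLp (fun p : ℂ × ℝ => (starRingEnd ℂ) (En j p.1)) a) ∂(mB κ)) =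
          ∫ p : ℂ × ℝ, En i p.1 * (starRingEnd ℂ) (En j p.1) ∂(mB κ) from ?_]
      · exact integral_En2 i j
      · refine integral_congr_ae ?_
        filter_upwards [(memLp_En (κ := κ) i).coeFn_toLp, (memLp_En (κ := κ) j).coeFn_toLp]
          with p h1 h2
        rw [h1, h2, RCLike.inner_apply, Complex.conj_conj]
        ring) S (hF.toLp F)
  have e1 : ∀ ν, inner ℂ ((memLp_En (κ := κ) ν).toLp
      (fun p : ℂ × ℝ => (starRingEnd ℂ) (En ν p.1))) (hF.toLp F) =
      ∫ p, F p * En ν p.1 ∂(mB κ) := by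
    intro ν
    rw [L2.inner_def]
    refine integral_congr_ae ?_
    filter_upwards [(memLp_En (κ := κ) ν).coeFn_toLp, hF.coeFn_toLp] with p h1 h2
    rw [h1, h2, RCLike.inner_apply, Complex.conj_conj]
  have e2 : ‖hF.toLp F‖ ^ 2 = ∫ p, ‖F p‖ ^ 2 ∂(mB κ) := by
    have h3 : ((‖hF.toLp F‖ ^ 2 : ℝ) : ℂ) = inner ℂ (hF.toLp F) (hF.toLp F) := by
      rw [inner_self_eq_norm_sq_to_K]; norm_cast
    have h4 : inner ℂ (hF.toLp F) (hF.toLp F) = ((∫ p, ‖F p‖ ^ 2 ∂(mB κ) : ℝ) : ℂ) := by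
      rw [L2.inner_def, ← integral_complex_ofReal]
      refine integral_congr_ae ?_
      filter_upwards [hF.coeFn_toLp] with p h2
      rw [h2, inner_self_eq_norm_sq_to_K]
      norm_cast
    exact_mod_cast h3.trans h4
  simp only [e1, e2] at h
  exact h

end Vale.Agent.P006.FC
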