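import Vale.Agent.P006.H2.Tail2
import Vale.Agent.P006.KER.Twist

/-!
P006, block FC: interfaces.

* `HSHyp` (input, from GRAM + JB): the strip bound for `h = Φ(U s^{it}) - c Φ(U0)` with `l(h) = 0`;
* `MSfix θ` (output of the two-scale argument): mean square over the frequency at the proportional
  lengths `B k_ν / K`, `K ≤ k_ν ≤ 2K`.
-/

open MeasureTheory Set Filter
open scoped Topology

namespace Vale.Agent.P006.FC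

open Vale.Agent.P006.KER (Nice Phi tw)

/-- `S_ν(W;Y) = ∑_{d primary} g(ν,d) W(N(d)/Y)` -/
noncomputable def Sg (W : ℝ → ℂ) (ν : O) (Y : ℝ) : ℂ := ∑' d : PD, gs ν d * W (N (d : O) / Y)

/-- the comparison constant `c = l(Φ(U s^{it}) K B) / l(Φ(U0) K B0)` -/
noncomputable def cc (U U0 : ℝ → ℂ) (t B B0 : ℝ) : ℂ :=
  (((B / B0) ^ (4 / 3 : ℝ) : ℝ) : ℂ) *
    (mellin U ((4 / 3 : ℂ) + t * Complex.I) / mellin U0 (4 / 3 : ℂ))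

/-- the profile `h = Φ(U s^{it}) K B - c Φ(U0) K B0` -/
noncomputable def hh (U U0 : ℝ → ℂ) (t K B B0 : ℝ) (v : ℝ) : ℂ :=
  Phi (tw U t) K B v - cc U U0 t B B0 * Phi U0 K B0 v

/-- **input**: strip bound for profiles with `l(h) = 0` -/
def HSHyp : Prop :=
  ∀ (U : ℝ → ℂ) (a b : ℝ) (U0 : ℝ → ℂ) (a0 b0 : ℝ), Nice U a b → Nice U0 a0 b0 →
    mellin U0 (4 / 3 : ℂ) ≠ 0 → ∀ ε : ℝ, 0 < ε → ∀ δ : ℝ, 0 < δ → ∃ C : ℝ, 0 ≤ C ∧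
      ∀ t K B B0 Z : ℝ, δ ≤ K → δ ≤ B → B ≤ B0 → K ≤ Z → B0 ≤ Z → 1 + |t| ≤ Z →
        ∀ x : ℝ, 0 < x →
          ∫⁻ p, ‖FS (hh U U0 t K B B0) p‖ₑ ^ 2 ∂(mB (km (Ioc x (2 * x)))) ≤
            ENNReal.ofReal (C * Z ^ ε * (K ^ 4 * B ^ 2 / (1 + |t|)) * (x ^ 3 + x))

/-- **output**: mean square over the frequency at proportional lengths -/
def MSfix (θ : O → ℂ) : Prop :=
  ∀ (U : ℝ → ℂ) (a b : ℝ), Nice U a b → ∀ ε : ℝ, 0 < ε → ∀ δ : ℝ, 0 < δ → ∃ C : ℝ, 0 ≤ C ∧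
    ∀ t K B : ℝ, δ ≤ K → δ ≤ B → ∀ S : Finset O, (∀ ν ∈ S, ν ≠ 0 ∧ K ≤ kf ν ∧ kf ν ≤ 2 * K) →
      ∑ ν ∈ S, ‖Sg (tw U t) ν (B * kf ν / K) -
          θ ν * (((B * kf ν / K) ^ (4 / 3 : ℝ) : ℝ) : ℂ) *
            mellin U ((4 / 3 : ℂ) + t * Complex.I)‖ ^ 2 ≤
        C * (2 + K + B + |t|) ^ ε * (B ^ 2 * (K ^ 2 * (1 + |t|) + (1 + |t|) ^ 3))

end Vale.Agent.P006.FC
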