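import Vale.Agent.P006.H2.Limit
import Vale.Agent.P006.JB.HSFinal
import Vale.Agent.P006.KER.FCFix
import Vale.Agent.P006.Main.Aut

/-!
P006, block FC: existence of the residues `θ_ν`, unconditionally.
-/

namespace Vale.Agent.P006.FC

/-- **mean square over the frequency, unconditional** -/
theorem exists_MSfix : ∃ θ : O → ℂ, MSfix θ := MSfix_of_HS JB.hsHyp

/-- **automorphic input, unconditional** -/
theorem autExists : AutExists := by
  obtain ⟨θ, hθ⟩ := exists_MSfix
  exact ⟨θ, KER.FCHyp_of_MSfix hθ⟩

end Vale.Agent.P006.FC
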