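import Vale.Agent.P006.H2.Strip
import Vale.Agent.P006.KER.Formula
import Vale.Agent.P006.V2.Summ

/-!
P006, block FC: integrability of the profiles, and the basic inequality
`∑_ν |∫ F_f e_ν|^2 ≤ strips + tail`.
-/

open MeasureTheory Set Filter
open scoped Topology

namespace Vale.Agent.P006.FC

open Vale.Agent.P006.KER (R3 hmeas posm sphm joint_law integral_sphm measurable_R3)

/-- the class of profiles: measurable, `|f(x)| ≤ C (1+x)^{-4}` on `(0,∞)` -/
structure CLf (f : ℝ → ℂ) : Prop where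
  meas : Measurable f
  bound : ∃ C : ℝ, 0 ≤ C ∧ ∀ x, 0 < x → ‖f x‖ ≤ C * (1 + x) ^ (-4 : ℤ)

lemma fd_eq (f : ℝ → ℂ) (n : ℝ) (p : ℂ × ℝ) : fd f n p = f (2 * n * R3 p) := by
  rw [fd, R3]; congr 1; ring

lemma hmeas_eq : hmeas = mH (km (Ioi 0)) := rfl

lemma integrableOn_inv_sq : IntegrableOn (fun x : ℝ => (1 + x) ^ (-2 : ℤ)) (Ioi 0) := by
  have h := integrableOn_Ioi_rpow_of_lt (a := -2) (by norm_num) (c := 1) zero_lt_one
  have h2 : IntegrableOn (fun x : ℝ => (1 + x) ^ (-2 : ℝ)) (Ioi 0) := by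
    have h3 := (measurePreserving_add_left (volume : Measure ℝ) 1).integrableOn_comp_preimage
      (MeasurableEquiv.addLeft (1 : ℝ)).measurableEmbedding (f := fun x : ℝ => x ^ (-2 : ℝ))
      (s := Ioi 1)
    have e : (fun x : ℝ => 1 + x) ⁻¹' (Ioi 1) = Ioi 0 := by ext x; simp
    rw [e] at h3
    exact h3.2 h
  refine h2.congr_fun (fun x hx => ?_) measurableSet_Ioi
  have hx' : (0 : ℝ) < 1 + x := by have : (0 : ℝ) < x := hx; linarith
  rw [← Real.rpow_intCast]; norm_num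

lemma profile_bound {f : ℝ → ℂ} {C : ℝ} (hC0 : 0 ≤ C)
    (hC : ∀ x, 0 < x → ‖f x‖ ≤ C * (1 + x) ^ (-4 : ℤ)) {n : ℝ} (hn : 0 < n) {R : ℝ} (hR : 0 < R) :
    R ^ 2 * ‖f (2 * n * R)‖ ≤ C / n ^ 2 * (1 + 2 * n * R) ^ (-2 : ℤ) := by
  have h := hC (2 * n * R) (by positivity)
  have h1 : 0 < 1 + 2 * n * R := by positivity
  calc R ^ 2 * ‖f (2 * n * R)‖ ≤ R ^ 2 * (C * (1 + 2 * n * R) ^ (-4 : ℤ)) := by gcongr
    _ = C / n ^ 2 * ((n * R) ^ 2 * (1 + 2 * n * R) ^ (-4 : ℤ)) := by field_simp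
    _ ≤ C / n ^ 2 * ((1 + 2 * n * R) ^ 2 * (1 + 2 * n * R) ^ (-4 : ℤ)) := by
        gcongr
        nlinarith [mul_pos hn hR]
    _ = C / n ^ 2 * (1 + 2 * n * R) ^ (-2 : ℤ) := by
        congr 1
        rw [← zpow_natCast (1 + 2 * n * R) 2, ← zpow_add₀ h1.ne']
        norm_num

lemma integrableOn_profile {f : ℝ → ℂ} (hf : CLf f) {n : ℝ} (hn : 0 < n) :
    IntegrableOn (fun R => R ^ 2 * ‖f (2 * n * R)‖) (Ioi 0) := by
  obtain ⟨C, hC0, hC⟩ := hf.bound
  have hm : Measurable fun R : ℝ => R ^ 2 * ‖f (2 * n * R)‖ :=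
    (measurable_id.pow_const 2).mul (hf.meas.comp (measurable_const.mul measurable_id)).norm
  have h1 : IntegrableOn (fun R : ℝ => C / n ^ 2 * (1 + 2 * n * R) ^ (-2 : ℤ)) (Ioi 0) := by
    have h2 := (integrableOn_Ioi_comp_mul_left_iff (fun x : ℝ => (1 + x) ^ (-2 : ℤ)) 0
      (show (0 : ℝ) < 2 * n by positivity)).2 (by rw [mul_zero]; exact integrableOn_inv_sq)
    exact h2.const_mul _
  refine Integrable.mono' h1 hm.aestronglyMeasurable ?_
  filter_upwards [ae_restrict_mem measurableSet_Ioi] with R hR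
  rw [Real.norm_of_nonneg (by positivity)]
  exact profile_bound hC0 hC hn hR

lemma integral_inv_sq_le (n : ℝ) (hn : 0 < n) :
    ∫ R in Ioi (0 : ℝ), (1 + 2 * n * R) ^ (-2 : ℤ) = 1 / (2 * n) := by
  have h := integral_comp_mul_left_Ioi (fun x : ℝ => (1 + x) ^ (-2 : ℤ)) 0
    (show (0 : ℝ) < 2 * n by positivity)
  rw [h, mul_zero]
  have h2 : ∫ x in Ioi (0 : ℝ), (1 + x) ^ (-2 : ℤ) = 1 := by
    have h3 := integral_Ioi_rpow_of_lt (a := -2) (by norm_num) (c := 1) zero_lt_one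
    have h4 := (measurePreserving_add_left (volume : Measure ℝ) 1).setIntegral_preimage_emb
      (MeasurableEquiv.addLeft (1 : ℝ)).measurableEmbedding (fun x : ℝ => x ^ (-2 : ℝ)) (Ioi 1)
    have e : (fun x : ℝ => 1 + x) ⁻¹' (Ioi 1) = Ioi 0 := by ext x; simp
    rw [e, h3] at h4
    have h5 : ∫ x in Ioi (0 : ℝ), (1 + x) ^ (-2 : ℤ) = ∫ x in Ioi (0 : ℝ), (1 + x) ^ (-2 : ℝ) := by
      refine setIntegral_congr_fun measurableSet_Ioi fun x hx => ?_
      have hx' : (0 : ℝ) < 1 + x := by have : (0 : ℝ) < x := hx; linarith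
      rw [← Real.rpow_intCast]; norm_num
    rw [h5, h4]; norm_num
  rw [h2]; simp

/-- integrability of the profiles on the upper half space with the bound `C n^{-3}` -/
theorem integrable_fd {f : ℝ → ℂ} (hf : CLf f) {n : ℝ} (hn : 0 < n) :
    Integrable (fd f n) hmeas := by
  have hm : Measurable fun R : ℝ => f (2 * n * R) := hf.meas.comp (measurable_const.mul measurable_id)
  obtain ⟨h1, -⟩ := integral_sphm (g := fun _ => 1) (C := 1) aestronglyMeasurable_const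
    (fun _ => by simp) (Ψ := fun R => f (2 * n * R)) hm.aestronglyMeasurable
    (integrableOn_profile hf hn)
  rw [← joint_law] at h1
  have h2 := h1.comp_measurable (Complex.measurable_re.comp measurable_fst |>.prodMk measurable_R3)
  refine h2.congr (Eventually.of_forall fun p => ?_)
  simp only [Function.comp_apply, one_mul, fd_eq]

theorem integral_norm_fd_le {f : ℝ → ℂ} (hf : CLf f) : ∃ C : ℝ, 0 ≤ C ∧ ∀ n : ℝ, 0 < n →
    ∫ p, ‖fd f n p‖ ∂hmeas ≤ C * (n ^ 3)⁻¹ := by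
  obtain ⟨C, hC0, hC⟩ := hf.bound
  refine ⟨4 * Real.pi * C, by positivity, ?_⟩
  intro n hn
  have hm : Measurable fun R : ℝ => ((‖f (2 * n * R)‖ : ℝ) : ℂ) :=
    Complex.measurable_ofReal.comp (hf.meas.comp (measurable_const.mul measurable_id)).norm
  obtain ⟨h1, h2⟩ := integral_sphm (g := fun _ => 1) (C := 1) aestronglyMeasurable_const
    (fun _ => by simp) (Ψ := fun R => ((‖f (2 * n * R)‖ : ℝ) : ℂ)) hm.aestronglyMeasurable
    (by simpa using integrableOn_profile hf hn)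
  rw [← joint_law] at h1 h2
  have hmm : Measurable (fun p : ℂ × ℝ => (p.1.re, R3 p)) :=
    (Complex.measurable_re.comp measurable_fst).prodMk measurable_R3
  rw [integral_map hmm.aemeasurable h1.aestronglyMeasurable] at h2
  have h3 : ((∫ p, ‖fd f n p‖ ∂hmeas : ℝ) : ℂ) = ((∫ R in Ioi (0 : ℝ),
      4 * Real.pi * (R ^ 2 * ‖f (2 * n * R)‖) : ℝ) : ℂ) := by
    rw [← integral_complex_ofReal, ← integral_complex_ofReal]
    have e1 : (∫ p, ((‖fd f n p‖ : ℝ) : ℂ) ∂hmeas) =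
        ∫ x, (1 : ℂ) * ((‖f (2 * n * R3 x)‖ : ℝ) : ℂ) ∂hmeas := by
      congr 1; funext p; rw [fd_eq, one_mul]
    rw [e1, h2]
    congr 1; funext R
    rw [intervalIntegral.integral_const]
    simp only [Complex.real_smul]
    push_cast; ring
  have h4 : ∫ p, ‖fd f n p‖ ∂hmeas = ∫ R in Ioi (0 : ℝ), 4 * Real.pi * (R ^ 2 * ‖f (2 * n * R)‖) := by
    exact_mod_cast h3
  rw [h4, integral_const_mul]
  have hint2 : IntegrableOn (fun R : ℝ => C / n ^ 2 * (1 + 2 * n * R) ^ (-2 : ℤ)) (Ioi 0) := by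
    have h2 := (integrableOn_Ioi_comp_mul_left_iff (fun x : ℝ => (1 + x) ^ (-2 : ℤ)) 0
      (show (0 : ℝ) < 2 * n by positivity)).2 (by rw [mul_zero]; exact integrableOn_inv_sq)
    exact h2.const_mul _
  have h5 : ∫ R in Ioi (0 : ℝ), R ^ 2 * ‖f (2 * n * R)‖ ≤ C / n ^ 2 * (1 / (2 * n)) := by
    rw [← integral_inv_sq_le n hn, ← integral_const_mul]
    exact setIntegral_mono_on (integrableOn_profile hf hn) hint2 measurableSet_Ioi
      fun R hR => profile_bound hC0 hC hn hR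
  calc 4 * Real.pi * ∫ R in Ioi (0 : ℝ), R ^ 2 * ‖f (2 * n * R)‖
      ≤ 4 * Real.pi * (C / n ^ 2 * (1 / (2 * n))) := by gcongr
    _ = 4 * Real.pi * C * (n ^ 3)⁻¹ * (1 / 2) := by field_simp
    _ ≤ 4 * Real.pi * C * (n ^ 3)⁻¹ := by
        refine mul_le_of_le_one_right (by positivity) (by norm_num)

end Vale.Agent.P006.FC
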