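import Mathlib.MeasureTheory.Integral.Bochner.Set
import Mathlib.MeasureTheory.Integral.DominatedConvergence
import Mathlib.MeasureTheory.Measure.Lebesgue.Complex
import Mathlib.MeasureTheory.Measure.Haar.NormedSpace
import Vale.Agent.P006.CR.Residue

/-!
P006, block FC: the fundamental parallelogram `B` of the lattice `3 O` in `ℂ` and the folding
identity `∑_t ∫_B ψ(z - 3 t) dz = ∫_ℂ ψ`.
-/

open MeasureTheory Set

namespace Vale.Agent.P006.FC

/-- first coordinate of `z` with respect to `3, 3ω` -/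
noncomputable def cX (z : ℂ) : ℝ := z.re / 3 + z.im / (3 * Real.sqrt 3)

/-- second coordinate of `z` with respect to `3, 3ω` -/
noncomputable def cY (z : ℂ) : ℝ := 2 * z.im / (3 * Real.sqrt 3)

/-- the fundamental parallelogram `{3 (x + y ω) : x, y ∈ [0,1)}` -/
def B : Set ℂ := {z | cX z ∈ Ico (0 : ℝ) 1 ∧ cY z ∈ Ico (0 : ℝ) 1}

lemma sqrt3_pos : 0 < Real.sqrt 3 := Real.sqrt_pos.2 (by norm_num)

lemma cY_toC (t : O) : cY (3 * toC t) = t.im := by
  have h := sqrt3_pos
  simp only [cY, Complex.mul_im, toC_re, toC_im]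
  norm_num
  field_simp

lemma cX_toC (t : O) : cX (3 * toC t) = t.re := by
  have h := sqrt3_pos
  simp only [cX, Complex.mul_re, Complex.mul_im, toC_re, toC_im]
  norm_num
  field_simp
  ring

lemma cX_add (z w : ℂ) : cX (z + w) = cX z + cX w := by simp [cX]; ring

lemma cY_add (z w : ℂ) : cY (z + w) = cY z + cY w := by simp [cY]; ring

lemma cX_neg (z : ℂ) : cX (-z) = -cX z := by simp [cX]; ring

lemma cY_neg (z : ℂ) : cY (-z) = -cY z := by simp [cY]; ring

lemma cX_sub (z w : ℂ) : cX (z - w) = cX z - cX w := by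
  rw [sub_eq_add_neg, cX_add, cX_neg]; ring

lemma cY_sub (z w : ℂ) : cY (z - w) = cY z - cY w := by
  rw [sub_eq_add_neg, cY_add, cY_neg]; ring

lemma eq_of_coord (z : ℂ) : z = 3 * ((cX z : ℂ) + (cY z : ℂ) * omC) := by
  have h := sqrt3_pos
  have h3 : Real.sqrt 3 * Real.sqrt 3 = 3 := Real.mul_self_sqrt (by norm_num)
  have e1 : (3 * ((cX z : ℂ) + (cY z : ℂ) * omC)).re = 3 * (cX z - cY z / 2) := by
    simp [omC]; ring
  have e2 : (3 * ((cX z : ℂ) + (cY z : ℂ) * omC)).im = 3 * (cY z * (Real.sqrt 3 / 2)) := by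
    simp [omC]
  apply Complex.ext
  · rw [e1]; simp only [cX, cY]; field_simp; ring
  · rw [e2]; simp only [cX, cY]; field_simp

lemma measurable_cX : Measurable cX := by unfold cX; fun_prop

lemma measurable_cY : Measurable cY := by unfold cY; fun_prop

lemma measurableSet_B : MeasurableSet B := by
  have h1 : MeasurableSet (cX ⁻¹' Ico (0 : ℝ) 1) := measurable_cX measurableSet_Ico
  have h2 : MeasurableSet (cY ⁻¹' Ico (0 : ℝ) 1) := measurable_cY measurableSet_Ico
  exact h1.inter h2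

/-- the translate of `B` by `3 t` -/
def Bt (t : O) : Set ℂ := {z | z - 3 * toC t ∈ B}

lemma measurableSet_Bt (t : O) : MeasurableSet (Bt t) :=
  measurableSet_B.preimage (measurable_id.sub_const _)

lemma mem_Bt {t : O} {z : ℂ} : z ∈ Bt t ↔ t.re = ⌊cX z⌋ ∧ t.im = ⌊cY z⌋ := by
  have e1 : z ∈ Bt t ↔ (0 ≤ cX z - t.re ∧ cX z - t.re < 1) ∧ (0 ≤ cY z - t.im ∧ cY z - t.im < 1) := by
    simp only [Bt, B, mem_ofPred_eq, cX_sub, cY_sub, cX_toC, cY_toC, mem_Ico]
  rw [e1, eq_comm, Int.floor_eq_iff, eq_comm, Int.floor_eq_iff]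
  constructor
  · rintro ⟨⟨h1, h2⟩, h3, h4⟩
    exact ⟨⟨by linarith, by linarith⟩, by linarith, by linarith⟩
  · rintro ⟨⟨h1, h2⟩, h3, h4⟩
    exact ⟨⟨by linarith, by linarith⟩, by linarith, by linarith⟩

lemma iUnion_Bt : (⋃ t, Bt t) = univ := by
  refine eq_univ_of_forall fun z => mem_iUnion.2 ⟨⟨⌊cX z⌋, ⌊cY z⌋⟩, ?_⟩
  rw [mem_Bt]
  exact ⟨rfl, rfl⟩

lemma pairwise_Bt : Pairwise (Function.onFun Disjoint Bt) := by
  intro s t hst
  rw [Function.onFun, Set.disjoint_left]
  intro z hs ht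
  rw [mem_Bt] at hs ht
  exact hst (QuadraticAlgebra.ext (hs.1.trans ht.1.symm) (hs.2.trans ht.2.symm))

instance : Countable O := by
  have h : Function.Injective (fun z : O => (z.re, z.im)) := by
    intro x y h
    simp only [Prod.mk.injEq] at h
    exact QuadraticAlgebra.ext h.1 h.2
  exact h.countable

lemma integral_Bt (ψ : ℂ → ℂ) (t : O) : ∫ z in Bt t, ψ z = ∫ z in B, ψ (z + 3 * toC t) := by
  have h1 : MeasurePreserving (fun z : ℂ => z + 3 * toC t) volume volume :=
    measurePreserving_add_right volume _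
  have h2 : MeasurableEmbedding (fun z : ℂ => z + 3 * toC t) :=
    (MeasurableEquiv.addRight (3 * toC t)).measurableEmbedding
  rw [← h1.setIntegral_preimage_emb h2]
  congr 2
  ext z
  simp [Bt]

/-- folding identity for the lattice `3 O` -/
theorem hasSum_fold {ψ : ℂ → ℂ} (hψ : Integrable ψ) :
    HasSum (fun t : O => ∫ z in B, ψ (z - 3 * toC t)) (∫ z, ψ z) := by
  have h := hasSum_integral_iUnion (μ := volume) (f := ψ) measurableSet_Bt pairwise_Bt
    (by rw [iUnion_Bt]; exact hψ.integrableOn)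
  rw [iUnion_Bt, setIntegral_univ] at h
  simp_rw [integral_Bt] at h
  have h2 := (Equiv.neg O).hasSum_iff.2 h
  have e : (fun t : O => ∫ z in B, ψ (z - 3 * toC t)) =
      (fun t : O => ∫ z in B, ψ (z + 3 * toC t)) ∘ (Equiv.neg O) := by
    funext t
    simp [sub_eq_add_neg]
  rw [e]
  exact h2

/-- folding identity for norms -/
theorem hasSum_fold_norm {ψ : ℂ → ℂ} (hψ : Integrable ψ) :
    HasSum (fun t : O => ∫ z in B, ‖ψ (z - 3 * toC t)‖) (∫ z, ‖ψ z‖) := by
  have h := hasSum_fold (ψ := fun z => ((‖ψ z‖ : ℝ) : ℂ)) hψ.norm.ofReal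
  have h2 := Complex.hasSum_re h
  simpa only [integral_complex_ofReal, Complex.ofReal_re] using h2

end Vale.Agent.P006.FC
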