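import Vale.Agent.P006.H2.TwoScale
import Mathlib.Analysis.SpecificLimits.Basic
import Mathlib.Analysis.Calculus.BumpFunction.InnerProduct
import Mathlib.Analysis.Calculus.BumpFunction.FiniteDimension

/-!
P006, block FC: existence of the limits `θ_ν`, and the mean square `MSfix θ`.
-/

open MeasureTheory Set Filter
open scoped Topology ContDiff

namespace Vale.Agent.P006.FC

open Vale.Agent.P006.KER (Nice Phi tw hmeas Tf hW)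

/-- dyadic Cauchy criterion with a rate -/
theorem limit_exists {α : ℝ} (hα : 0 < α) : ∃ Cα : ℝ, 0 ≤ Cα ∧ ∀ (τ : ℝ → ℂ) (M : ℝ), 0 ≤ M →
    (∀ B B0 : ℝ, 1 ≤ B → B ≤ B0 → B0 ≤ 2 * B → ‖τ B - τ B0‖ ≤ M * B ^ (-α)) →
    ∃ θ : ℂ, ∀ Y : ℝ, 1 ≤ Y → ‖τ Y - θ‖ ≤ Cα * M * Y ^ (-α) := by
  set r : ℝ := (2 : ℝ) ^ (-α) with hr
  have hr0 : 0 < r := by positivity
  have hr1 : r < 1 := Real.rpow_lt_one_of_one_lt_of_neg (by norm_num) (by linarith)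
  refine ⟨1 + 1 / (1 - r), by have : 0 < 1 - r := by linarith
                              positivity, ?_⟩
  intro τ M hM h
  have hstep : ∀ n : ℕ, dist (τ (2 ^ n)) (τ (2 ^ (n + 1))) ≤ M * r ^ n := by
    intro n
    rw [dist_eq_norm]
    have h1 := h (2 ^ n) (2 ^ (n + 1)) (one_le_pow₀ (by norm_num))
      (pow_le_pow_right₀ (by norm_num) (by omega)) (by rw [pow_succ]; linarith)
    refine h1.trans (le_of_eq ?_)
    rw [hr, ← Real.rpow_natCast 2 n, ← Real.rpow_mul (by norm_num),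
      ← Real.rpow_natCast ((2 : ℝ) ^ (-α)) n, ← Real.rpow_mul (by norm_num)]
    congr 2; ring
  have hc := cauchySeq_of_le_geometric r M hr1 hstep
  obtain ⟨θ, hθ⟩ := cauchySeq_tendsto_of_complete hc
  refine ⟨θ, ?_⟩
  intro Y hY
  obtain ⟨n, hn1, hn2⟩ := exists_nat_pow_near hY (by norm_num : (1 : ℝ) < 2)
  -- `2^n ≤ Y < 2^(n+1)`
  have hY0 : 0 < Y := by linarith
  have h1 := h Y (2 ^ (n + 1)) hY hn2.le (by rw [pow_succ]; linarith)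
  have h2 := dist_le_of_le_geometric_of_tendsto r M hr1 hstep hθ (n + 1)
  rw [dist_eq_norm] at h2
  have h3 : r ^ (n + 1) ≤ Y ^ (-α) := by
    have e : r ^ (n + 1) = ((2 : ℝ) ^ (n + 1)) ^ (-α) := by
      rw [hr, ← Real.rpow_natCast ((2 : ℝ) ^ (-α)) (n + 1), ← Real.rpow_natCast 2 (n + 1),
        ← Real.rpow_mul (by norm_num), ← Real.rpow_mul (by norm_num)]
      congr 1; ring
    rw [e]
    exact Real.rpow_le_rpow_of_nonpos hY0 hn2.le (by linarith)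
  have hr' : 0 < 1 - r := by linarith
  calc ‖τ Y - θ‖ ≤ ‖τ Y - τ (2 ^ (n + 1))‖ + ‖τ (2 ^ (n + 1)) - θ‖ := norm_sub_le_norm_sub_add_norm_sub _ _ _
    _ ≤ M * Y ^ (-α) + M * r ^ (n + 1) / (1 - r) := add_le_add h1 h2
    _ ≤ M * Y ^ (-α) + M * Y ^ (-α) / (1 - r) := by gcongr
    _ = _ := by field_simp

/-- a comparison weight -/
theorem exists_U0 : ∃ U0 : ℝ → ℂ, Nice U0 1 3 ∧ mellin U0 (4 / 3 : ℂ) ≠ 0 := by
  let f : ContDiffBump (2 : ℝ) := ⟨1 / 2, 1, by norm_num, by norm_num⟩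
  refine ⟨fun x => ((f x : ℝ) : ℂ), ⟨?_, by norm_num, by norm_num, ?_⟩, ?_⟩
  · exact Complex.ofRealCLM.contDiff.comp (f.contDiff (n := (⊤ : ℕ∞)))
  · intro x hx
    have : f x = 0 := by
      refine f.zero_of_le_dist ?_
      rw [Real.dist_eq]
      by_contra h
      push Not at h
      rw [abs_lt] at h
      have h1 : (f.rOut : ℝ) = 1 := rfl
      rw [h1] at h
      exact hx ⟨by linarith, by linarith⟩
    simp [this]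
  · have e : mellin (fun x : ℝ => ((f x : ℝ) : ℂ)) (4 / 3 : ℂ) =
        ((∫ x in Ioi (0 : ℝ), x ^ (1 / 3 : ℝ) * f x : ℝ) : ℂ) := by
      rw [mellin, ← integral_complex_ofReal]
      refine setIntegral_congr_fun measurableSet_Ioi fun x hx => ?_
      have hx' : (0 : ℝ) < x := hx
      simp only [smul_eq_mul]
      rw [Complex.ofReal_mul, Complex.ofReal_cpow hx'.le]
      congr 2
      push_cast; norm_num
    rw [e]
    refine Complex.ofReal_ne_zero.2 (ne_of_gt ?_)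
    have hcont : Continuous fun x : ℝ => x ^ (1 / 3 : ℝ) * f x :=
      (Real.continuous_rpow_const (by norm_num)).mul f.continuous
    have hint : IntegrableOn (fun x : ℝ => x ^ (1 / 3 : ℝ) * f x) (Ioi 0) := by
      refine (hcont.integrable_of_hasCompactSupport ?_).integrableOn
      exact f.hasCompactSupport.mul_left
    rw [setIntegral_pos_iff_support_of_nonneg_ae ?_ hint]
    · refine lt_of_lt_of_le ?_ (measure_mono (show Ioo (3 / 2 : ℝ) (5 / 2) ⊆ _ from ?_))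
      · simp; norm_num
      · intro x hx
        refine ⟨?_, by have := hx.1; exact lt_trans (by norm_num) this⟩
        rw [Function.mem_support]
        have h1 : f x = 1 := by
          refine f.one_of_mem_closedBall ?_
          rw [Metric.mem_closedBall, Real.dist_eq, abs_le]
          have h1 : (f.rIn : ℝ) = 1 / 2 := rfl
          rw [h1]
          constructor <;> linarith [hx.1, hx.2]
        rw [h1, mul_one]
        have : 0 < x := lt_trans (by norm_num) hx.1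
        positivity
    · filter_upwards [ae_restrict_mem measurableSet_Ioi] with x hx
      have hx' : (0 : ℝ) < x := hx
      have := f.nonneg (x := x)
      simp only [Pi.zero_apply]
      positivity

/-- two-scale inequality for one frequency and the comparison weight -/
lemma two_scale_one (hHS : HSHyp) {U0 : ℝ → ℂ} {a0 b0 : ℝ} (H0 : Nice U0 a0 b0)
    (hm : mellin U0 (4 / 3 : ℂ) ≠ 0) : ∃ C : ℝ, 0 ≤ C ∧ ∀ (ν : O), ν ≠ 0 →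
      ∀ B B0 : ℝ, 1 ≤ B → B ≤ B0 → B0 ≤ 2 * B →
      ‖Sg U0 ν B / ((B ^ (4 / 3 : ℝ) : ℝ) : ℂ) - Sg U0 ν B0 / ((B0 ^ (4 / 3 : ℝ) : ℝ) : ℂ)‖ ≤
        C * (1 + kf ν) ^ 2 * B ^ (-(1 / 4 : ℝ)) := by
  obtain ⟨C, hC0, hC⟩ := two_scale hHS H0 H0 hm (ε := 1 / 6) (by norm_num) (δ := 1) one_pos
  refine ⟨√C * 2, by positivity, ?_⟩
  intro ν hν B B0 hB hBB hB2
  have hk2 := kf_ge_one hν
  have hk0 : 0 < kf ν := by linarith
  have hB0 : 0 < B := by linarith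
  have hB00 : 0 < B0 := by linarith
  have h := hC 0 (kf ν) B B0 (kf ν + 2 * B) (by linarith) hB hBB (by linarith) (by linarith)
    (by rw [abs_zero]; linarith) {ν} (fun x hx => by
      rw [Finset.mem_singleton] at hx
      subst hx
      exact ⟨hν, le_rfl, by linarith⟩)
  rw [Finset.sum_singleton, abs_zero, add_zero, one_pow, mul_one] at h
  have e0 : tw U0 0 = U0 := by funext s; unfold tw; simp
  have e1 : B * kf ν / kf ν = B := by field_simp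
  have e2 : B0 * kf ν / kf ν = B0 := by field_simp
  have e3 : cc U0 U0 0 B B0 = (((B / B0) ^ (4 / 3 : ℝ) : ℝ) : ℂ) := by
    rw [cc]; simp [hm]
  rw [e0, e1, e2, e3] at h
  -- square root
  have h1 : ‖Sg U0 ν B - (((B / B0) ^ (4 / 3 : ℝ) : ℝ) : ℂ) * Sg U0 ν B0‖ ≤
      √C * (2 * (1 + kf ν) * B ^ (1 / 12 : ℝ)) * (B * (1 + kf ν)) := by
    refine abs_le_of_sq_le_sq' ?_ (by positivity) |>.2
    refine h.trans ?_
    rw [mul_pow, mul_pow, Real.sq_sqrt hC0]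
    have h2 : (kf ν + 2 * B) ^ (1 / 6 : ℝ) ≤ (2 * (1 + kf ν) * B ^ (1 / 12 : ℝ)) ^ 2 := by
      have h3 : kf ν + 2 * B ≤ (2 * (1 + kf ν)) * B := by nlinarith
      have h4 : (B ^ (1 / 12 : ℝ)) ^ 2 = B ^ (1 / 6 : ℝ) := by
        rw [← Real.rpow_natCast, ← Real.rpow_mul hB0.le]; norm_num
      calc (kf ν + 2 * B) ^ (1 / 6 : ℝ) ≤ ((2 * (1 + kf ν)) * B) ^ (1 / 6 : ℝ) :=
            Real.rpow_le_rpow (by positivity) h3 (by norm_num)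
        _ = (2 * (1 + kf ν)) ^ (1 / 6 : ℝ) * B ^ (1 / 6 : ℝ) := Real.mul_rpow (by positivity) hB0.le
        _ ≤ (2 * (1 + kf ν)) ^ (2 : ℝ) * B ^ (1 / 6 : ℝ) := by
            gcongr
            · linarith
            · norm_num
        _ = _ := by rw [mul_pow, h4, Real.rpow_two]
    have h5 : B ^ 2 * (kf ν ^ 2 + 1) ≤ (B * (1 + kf ν)) ^ 2 := by
      rw [mul_pow]
      gcongr
      nlinarith
    calc C * (kf ν + 2 * B) ^ (1 / 6 : ℝ) * (B ^ 2 * (kf ν ^ 2 + 1))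
        ≤ C * (2 * (1 + kf ν) * B ^ (1 / 12 : ℝ)) ^ 2 * (B * (1 + kf ν)) ^ 2 := by gcongr
      _ = _ := by ring
  have e4 : Sg U0 ν B / ((B ^ (4 / 3 : ℝ) : ℝ) : ℂ) - Sg U0 ν B0 / ((B0 ^ (4 / 3 : ℝ) : ℝ) : ℂ) =
      ((B ^ (-(4 / 3) : ℝ) : ℝ) : ℂ) * (Sg U0 ν B - (((B / B0) ^ (4 / 3 : ℝ) : ℝ) : ℂ) *
        Sg U0 ν B0) := by
    have p1 : (B : ℝ) ^ (4 / 3 : ℝ) ≠ 0 := (Real.rpow_pos_of_pos hB0 _).ne'
    have p2 : (B0 : ℝ) ^ (4 / 3 : ℝ) ≠ 0 := (Real.rpow_pos_of_pos hB00 _).ne'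
    rw [Real.rpow_neg hB0.le, Real.div_rpow hB0.le hB00.le]
    have p1' : ((B ^ (4 / 3 : ℝ) : ℝ) : ℂ) ≠ 0 := by exact_mod_cast p1
    have p2' : ((B0 ^ (4 / 3 : ℝ) : ℝ) : ℂ) ≠ 0 := by exact_mod_cast p2
    push_cast at *
    field_simp
  rw [e4, norm_mul, Complex.norm_real, Real.norm_of_nonneg (by positivity)]
  calc B ^ (-(4 / 3) : ℝ) * ‖Sg U0 ν B - (((B / B0) ^ (4 / 3 : ℝ) : ℝ) : ℂ) * Sg U0 ν B0‖
      ≤ B ^ (-(4 / 3) : ℝ) * (√C * (2 * (1 + kf ν) * B ^ (1 / 12 : ℝ)) * (B * (1 + kf ν))) := by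
        gcongr
    _ = √C * 2 * (1 + kf ν) ^ 2 * (B ^ (-(4 / 3) : ℝ) * B ^ (1 / 12 : ℝ) * B ^ (1 : ℝ)) := by
        rw [Real.rpow_one]; ring
    _ = _ := by
        rw [← Real.rpow_add hB0, ← Real.rpow_add hB0]
        congr 2; norm_num

/-- existence of the limits `θ_ν` with a rate, polynomial in `ν` -/
theorem theta_exists (hHS : HSHyp) {U0 : ℝ → ℂ} {a0 b0 : ℝ} (H0 : Nice U0 a0 b0)
    (hm : mellin U0 (4 / 3 : ℂ) ≠ 0) : ∃ θ : O → ℂ, ∃ C : ℝ, 0 ≤ C ∧ ∀ ν : O, ν ≠ 0 →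
      ∀ Y : ℝ, 1 ≤ Y → ‖Sg U0 ν Y - θ ν * mellin U0 (4 / 3 : ℂ) * ((Y ^ (4 / 3 : ℝ) : ℝ) : ℂ)‖ ≤
        C * (1 + kf ν) ^ 2 * Y ^ (4 / 3 : ℝ) * Y ^ (-(1 / 4 : ℝ)) := by
  obtain ⟨C, hC0, hC⟩ := two_scale_one hHS H0 hm
  obtain ⟨Cα, hCα0, hCα⟩ := limit_exists (α := 1 / 4) (by norm_num)
  have key : ∀ ν : O, ∃ θ : ℂ, ν ≠ 0 → ∀ Y : ℝ, 1 ≤ Y →
      ‖Sg U0 ν Y - θ * mellin U0 (4 / 3 : ℂ) * ((Y ^ (4 / 3 : ℝ) : ℝ) : ℂ)‖ ≤
        Cα * C * (1 + kf ν) ^ 2 * Y ^ (4 / 3 : ℝ) * Y ^ (-(1 / 4 : ℝ)) := by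
    intro ν
    by_cases hν : ν = 0
    · exact ⟨0, fun h => absurd hν h⟩
    have hk := kf_pos hν
    obtain ⟨θ, hθ⟩ := hCα (fun Y => Sg U0 ν Y / ((Y ^ (4 / 3 : ℝ) : ℝ) : ℂ))
      (C * (1 + kf ν) ^ 2) (by positivity) (hC ν hν)
    refine ⟨θ / mellin U0 (4 / 3 : ℂ), fun _ Y hY => ?_⟩
    have hY0 : 0 < Y := by linarith
    have p1 : 0 < Y ^ (4 / 3 : ℝ) := Real.rpow_pos_of_pos hY0 _
    have p1' : ((Y ^ (4 / 3 : ℝ) : ℝ) : ℂ) ≠ 0 := by exact_mod_cast p1.ne'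
    have e : Sg U0 ν Y - θ / mellin U0 (4 / 3 : ℂ) * mellin U0 (4 / 3 : ℂ) *
        ((Y ^ (4 / 3 : ℝ) : ℝ) : ℂ) = ((Y ^ (4 / 3 : ℝ) : ℝ) : ℂ) *
        (Sg U0 ν Y / ((Y ^ (4 / 3 : ℝ) : ℝ) : ℂ) - θ) := by
      field_simp
    rw [e, norm_mul, Complex.norm_real, Real.norm_of_nonneg p1.le]
    calc Y ^ (4 / 3 : ℝ) * ‖Sg U0 ν Y / ((Y ^ (4 / 3 : ℝ) : ℝ) : ℂ) - θ‖
        ≤ Y ^ (4 / 3 : ℝ) * (Cα * (C * (1 + kf ν) ^ 2) * Y ^ (-(1 / 4 : ℝ))) := by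
          gcongr
          exact hθ Y hY
      _ = _ := by ring
  choose θ hθ using key
  exact ⟨θ, Cα * C, by positivity, fun ν hν => hθ ν hν⟩

/-- the comparison term -/
lemma comp_term {U U0 : ℝ → ℂ} {a b : ℝ} (H : Nice U a b) {θ : O → ℂ}
    {C : ℝ} (hC0 : 0 ≤ C) (hC : ∀ ν : O, ν ≠ 0 →
      ∀ Y : ℝ, 1 ≤ Y → ‖Sg U0 ν Y - θ ν * mellin U0 (4 / 3 : ℂ) * ((Y ^ (4 / 3 : ℝ) : ℝ) : ℂ)‖ ≤
        C * (1 + kf ν) ^ 2 * Y ^ (4 / 3 : ℝ) * Y ^ (-(1 / 4 : ℝ))) : ∃ C' : ℝ, 0 ≤ C' ∧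
      ∀ (t K B Z : ℝ) (ν : O), 0 < K → 0 < B → ν ≠ 0 → K ≤ kf ν → kf ν ≤ 2 * K → 2 + K ≤ Z →
        B ≤ Z →
        ‖cc U U0 t B (Z ^ 20) * (Sg U0 ν (Z ^ 20 * kf ν / K) - θ ν * mellin U0 (4 / 3 : ℂ) *
          (((Z ^ 20 * kf ν / K) ^ (4 / 3 : ℝ) : ℝ) : ℂ))‖ ≤ C' * Z⁻¹ := by
  obtain ⟨C4, hC40, hC4⟩ := norm_cc_le (U0 := U0) H
  refine ⟨16 * (C4 * C), by positivity, ?_⟩
  intro t K B Z ν hK hB hν hk1 hk2 hKZ hBZ
  have hk := kf_pos hν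
  have hZ2 : 2 ≤ Z := by linarith
  have hZ0 : 0 < Z := by linarith
  have hZ1 : 1 ≤ Z := by linarith
  have hB0 : 0 < Z ^ 20 := by positivity
  have hBB : B ≤ Z ^ 20 := hBZ.trans (le_self_pow₀ hZ1 (by norm_num))
  set Y := Z ^ 20 * kf ν / K with hY
  have hY1 : Z ^ 20 ≤ Y := by
    rw [hY, le_div_iff₀ hK]; gcongr
  have hY2 : Y ≤ 2 * Z ^ 20 := by
    rw [hY, div_le_iff₀ hK]
    calc Z ^ 20 * kf ν ≤ Z ^ 20 * (2 * K) := by gcongr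
      _ = _ := by ring
  have hYone : 1 ≤ Y := (one_le_pow₀ hZ1).trans hY1
  have hY0 : 0 < Y := by linarith
  have h1 := hC ν hν Y hYone
  have h2 := hC4 t B (Z ^ 20) hB hBB
  rw [norm_mul]
  have h3 : Y ^ (-(1 / 4 : ℝ)) ≤ (Z ^ 5)⁻¹ := by
    calc Y ^ (-(1 / 4 : ℝ)) ≤ (Z ^ 20) ^ (-(1 / 4 : ℝ)) :=
          Real.rpow_le_rpow_of_nonpos hB0 hY1 (by norm_num)
      _ = (Z ^ 5)⁻¹ := by
          rw [← Real.rpow_natCast, ← Real.rpow_natCast, ← Real.rpow_mul hZ0.le,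
            ← Real.rpow_neg hZ0.le]
          norm_num
  have h4 : (B / Z ^ 20) ^ (4 / 3 : ℝ) * Y ^ (4 / 3 : ℝ) ≤ 4 * Z ^ 2 := by
    rw [← Real.mul_rpow (by positivity) hY0.le]
    have h5 : B / Z ^ 20 * Y ≤ 2 * Z := by
      calc B / Z ^ 20 * Y ≤ B / Z ^ 20 * (2 * Z ^ 20) := by gcongr
        _ = 2 * B := by field_simp
        _ ≤ 2 * Z := by gcongr
    calc (B / Z ^ 20 * Y) ^ (4 / 3 : ℝ) ≤ (2 * Z) ^ (4 / 3 : ℝ) :=
          Real.rpow_le_rpow (by positivity) h5 (by norm_num)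
      _ ≤ (2 * Z) ^ (2 : ℝ) := Real.rpow_le_rpow_of_exponent_le (by linarith) (by norm_num)
      _ = _ := by rw [Real.rpow_two]; ring
  have h6 : (1 + kf ν) ^ 2 ≤ 4 * Z ^ 2 := by
    have : 1 + kf ν ≤ 2 * Z := by linarith
    calc (1 + kf ν) ^ 2 ≤ (2 * Z) ^ 2 := by gcongr
      _ = _ := by ring
  calc ‖cc U U0 t B (Z ^ 20)‖ * ‖Sg U0 ν Y - θ ν * mellin U0 (4 / 3 : ℂ) *
        ((Y ^ (4 / 3 : ℝ) : ℝ) : ℂ)‖
      ≤ (C4 * (B / Z ^ 20) ^ (4 / 3 : ℝ)) * (C * (1 + kf ν) ^ 2 * Y ^ (4 / 3 : ℝ) *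
          Y ^ (-(1 / 4 : ℝ))) := by gcongr
    _ = C4 * C * (1 + kf ν) ^ 2 * ((B / Z ^ 20) ^ (4 / 3 : ℝ) * Y ^ (4 / 3 : ℝ)) *
          Y ^ (-(1 / 4 : ℝ)) := by ring
    _ ≤ C4 * C * (4 * Z ^ 2) * (4 * Z ^ 2) * (Z ^ 5)⁻¹ := by gcongr
    _ = _ := by field_simp; ring

/-- **the mean square over the frequency** -/
theorem MSfix_of_HS (hHS : HSHyp) : ∃ θ : O → ℂ, MSfix θ := by
  obtain ⟨U0, H0, hm⟩ := exists_U0
  obtain ⟨θ, C6, hC60, hC6⟩ := theta_exists hHS H0 hm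
  refine ⟨θ, ?_⟩
  intro U a b H ε hε δ hδ
  obtain ⟨C5, hC50, hC5⟩ := two_scale hHS H H0 hm (ε := ε / 20) (by positivity) hδ
  obtain ⟨C7, hC70, hC7⟩ := comp_term (U0 := U0) H hC60 hC6
  refine ⟨2 * C5 + 2 * (32 * C7 ^ 2) * (δ ^ 2)⁻¹, by positivity, ?_⟩
  intro t K B' hK hB S hS
  have hK0 : 0 < K := hδ.trans_le hK
  have hB0 : 0 < B' := hδ.trans_le hB
  have habs := abs_nonneg t
  obtain ⟨Z, hZ⟩ : ∃ Z : ℝ, Z = 2 + K + B' + |t| := ⟨_, rfl⟩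
  rw [← hZ]
  have hZ2 : 2 ≤ Z := by linarith
  have hZ1 : 1 ≤ Z := by linarith
  have hZ0 : 0 < Z := by linarith
  have hZ20 : Z ≤ Z ^ 20 := le_self_pow₀ hZ1 (by norm_num)
  have h1 := hC5 t K B' (Z ^ 20) (Z ^ 20) hK hB (by linarith) (by linarith) le_rfl
    (by linarith) S hS
  have e1 : (Z ^ 20) ^ (ε / 20) = Z ^ ε := by
    rw [← Real.rpow_natCast, ← Real.rpow_mul hZ0.le]
    congr 1; push_cast; ring
  rw [e1] at h1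
  have h2 : ∑ ν ∈ S, ‖cc U U0 t B' (Z ^ 20) * (Sg U0 ν (Z ^ 20 * kf ν / K) -
      θ ν * mellin U0 (4 / 3 : ℂ) * (((Z ^ 20 * kf ν / K) ^ (4 / 3 : ℝ) : ℝ) : ℂ))‖ ^ 2 ≤
      32 * C7 ^ 2 := by
    have hcard := card_freq_le hK0.le S fun ν hν => (hS ν hν).2.2
    calc _ ≤ ∑ ν ∈ S, (C7 * Z⁻¹) ^ 2 := by
          refine Finset.sum_le_sum fun ν hν => pow_le_pow_left₀ (norm_nonneg _) ?_ 2
          obtain ⟨q1, q2, q3⟩ := hS ν hν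
          exact hC7 t K B' Z ν hK0 hB0 q1 q2 q3 (by linarith) (by linarith)
      _ = (S.card : ℝ) * (C7 * Z⁻¹) ^ 2 := by rw [Finset.sum_const, nsmul_eq_mul]
      _ ≤ (8 * (1 + (2 * K) ^ 2)) * (C7 * Z⁻¹) ^ 2 := by gcongr
      _ ≤ (8 * (4 * Z ^ 2)) * (C7 * Z⁻¹) ^ 2 := by
          have : 1 + (2 * K) ^ 2 ≤ 4 * Z ^ 2 := by nlinarith
          gcongr
      _ = _ := by field_simp; ring
  have hlow : 1 ≤ (δ ^ 2)⁻¹ * (Z ^ ε * (B' ^ 2 * (K ^ 2 * (1 + |t|) + (1 + |t|) ^ 3))) := by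
    rw [← div_eq_inv_mul, one_le_div (by positivity)]
    have h5 : 1 ≤ Z ^ ε := Real.one_le_rpow hZ1 hε.le
    have h6 : (1 : ℝ) ≤ K ^ 2 * (1 + |t|) + (1 + |t|) ^ 3 := by
      have : 0 ≤ K ^ 2 * (1 + |t|) := by positivity
      have h7 : (1 : ℝ) ≤ (1 + |t|) ^ 3 := one_le_pow₀ (by linarith)
      linarith
    calc δ ^ 2 = 1 * (δ ^ 2 * 1) := by ring
      _ ≤ Z ^ ε * (B' ^ 2 * (K ^ 2 * (1 + |t|) + (1 + |t|) ^ 3)) := by gcongr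
  have hsplit : ∀ ν ∈ S, ‖Sg (tw U t) ν (B' * kf ν / K) -
      θ ν * (((B' * kf ν / K) ^ (4 / 3 : ℝ) : ℝ) : ℂ) *
        mellin U ((4 / 3 : ℂ) + t * Complex.I)‖ ^ 2 ≤
      2 * ‖Sg (tw U t) ν (B' * kf ν / K) - cc U U0 t B' (Z ^ 20) *
        Sg U0 ν (Z ^ 20 * kf ν / K)‖ ^ 2 +
      2 * ‖cc U U0 t B' (Z ^ 20) * (Sg U0 ν (Z ^ 20 * kf ν / K) -
      θ ν * mellin U0 (4 / 3 : ℂ) * (((Z ^ 20 * kf ν / K) ^ (4 / 3 : ℝ) : ℝ) : ℂ))‖ ^ 2 := by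
    intro ν hν
    have hk := kf_pos (hS ν hν).1
    have e2 : cc U U0 t B' (Z ^ 20) * (θ ν * mellin U0 (4 / 3 : ℂ) *
        (((Z ^ 20 * kf ν / K) ^ (4 / 3 : ℝ) : ℝ) : ℂ)) =
        θ ν * (((B' * kf ν / K) ^ (4 / 3 : ℝ) : ℝ) : ℂ) *
        mellin U ((4 / 3 : ℂ) + t * Complex.I) := by
      have e3 : (B' * kf ν / K) ^ (4 / 3 : ℝ) =
          (B' / Z ^ 20) ^ (4 / 3 : ℝ) * (Z ^ 20 * kf ν / K) ^ (4 / 3 : ℝ) := by
        rw [← Real.mul_rpow (by positivity) (by positivity)]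
        congr 1; field_simp
      rw [e3, cc]
      push_cast
      field_simp
    have e4 : Sg (tw U t) ν (B' * kf ν / K) -
      θ ν * (((B' * kf ν / K) ^ (4 / 3 : ℝ) : ℝ) : ℂ) *
        mellin U ((4 / 3 : ℂ) + t * Complex.I) =
        (Sg (tw U t) ν (B' * kf ν / K) - cc U U0 t B' (Z ^ 20) *
        Sg U0 ν (Z ^ 20 * kf ν / K)) + cc U U0 t B' (Z ^ 20) * (Sg U0 ν (Z ^ 20 * kf ν / K) -
      θ ν * mellin U0 (4 / 3 : ℂ) * (((Z ^ 20 * kf ν / K) ^ (4 / 3 : ℝ) : ℝ) : ℂ)) := by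
      rw [← e2]; ring
    rw [e4]
    generalize Sg (tw U t) ν (B' * kf ν / K) - cc U U0 t B' (Z ^ 20) *
        Sg U0 ν (Z ^ 20 * kf ν / K) = x
    generalize cc U U0 t B' (Z ^ 20) * (Sg U0 ν (Z ^ 20 * kf ν / K) -
      θ ν * mellin U0 (4 / 3 : ℂ) * (((Z ^ 20 * kf ν / K) ^ (4 / 3 : ℝ) : ℝ) : ℂ)) = y
    have h3 := norm_add_le x y
    have h4 := norm_nonneg (x + y)
    nlinarith [sq_nonneg (‖x‖ - ‖y‖), norm_nonneg x, norm_nonneg y]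
  refine (Finset.sum_le_sum hsplit).trans ?_
  rw [Finset.sum_add_distrib, ← Finset.mul_sum, ← Finset.mul_sum]
  generalize hP : B' ^ 2 * (K ^ 2 * (1 + |t|) + (1 + |t|) ^ 3) = P at *
  calc _ ≤ 2 * (C5 * Z ^ ε * P) + 2 * (32 * C7 ^ 2) := by gcongr
    _ ≤ 2 * (C5 * Z ^ ε * P) + 2 * (32 * C7 ^ 2) * ((δ ^ 2)⁻¹ * (Z ^ ε * P)) :=
        add_le_add le_rfl (le_mul_of_one_le_right (by positivity) hlow)
    _ = _ := by ring

end Vale.Agent.P006.FC
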