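import Mathlib.MeasureTheory.Integral.IntervalIntegral.Basic
import Mathlib.MeasureTheory.Integral.DominatedConvergence
import Mathlib.Algebra.Order.Chebyshev
import Vale.Agent.P006.H2.Bessel2

/-!
P006, block FC: summation of Bessel's inequality over dyadic strips.
-/

open MeasureTheory Set Filter
open scoped Topology

namespace Vale.Agent.P006.FC

/-- Lebesgue measure on an interval -/
noncomputable abbrev km (I : Set ℝ) : Measure ℝ := (volume : Measure ℝ).restrict I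

/-- one strip -/
theorem strip_one {F : ℂ × ℝ → ℂ} {a : ℝ} (ha : 0 < a)
    (hF : AEStronglyMeasurable F (mB (km (Ioc a (2 * a))))) {A : ℝ}
    (hA : 0 ≤ A)
    (hb : ∫⁻ p, ‖F p‖ₑ ^ 2 ∂(mB (km (Ioc a (2 * a)))) ≤ ENNReal.ofReal A) (S : Finset O) :
    ∑ ν ∈ S, ‖∫ p, F p * En ν p.1 ∂(mB (km (Ioc a (2 * a))))‖ ^ 2 ≤
      volume.real B * a * A := by
  have hfin : IsFiniteMeasure (km (Ioc a (2 * a))) := ⟨by simp⟩
  have hm : MemLp F 2 (mB (km (Ioc a (2 * a)))) := by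
    refine ⟨hF, ?_⟩
    rw [eLpNorm_lt_top_iff_lintegral_rpow_enorm_lt_top (by norm_num) (by norm_num)]
    simp only [ENNReal.toReal_ofNat, ENNReal.rpow_two]
    exact lt_of_le_of_lt hb ENNReal.ofReal_lt_top
  have h := bessel_strip hm S
  have e1 : (km (Ioc a (2 * a))).real univ = a := by
    rw [Measure.real, Measure.restrict_apply_univ, Real.volume_Ioc, ENNReal.toReal_ofReal] <;>
      linarith
  have e2 : ∫ p, ‖F p‖ ^ 2 ∂(mB (km (Ioc a (2 * a)))) ≤ A := by
    rw [integral_eq_lintegral_of_nonneg_ae (Eventually.of_forall fun p => by positivity)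
      (by fun_prop)]
    refine ENNReal.toReal_le_of_le_ofReal hA (le_trans (le_of_eq ?_) hb)
    refine lintegral_congr fun p => ?_
    rw [← ofReal_norm, ENNReal.ofReal_pow (norm_nonneg _)]
  rw [e1] at h
  refine h.trans ?_
  exact mul_le_mul_of_nonneg_left e2 (by positivity)

/-- the Fourier coefficient at height `y` -/
noncomputable def co (F : ℂ × ℝ → ℂ) (ν : O) (y : ℝ) : ℂ := ∫ z in B, F (z, y) * En ν z

lemma mB_restrict {I : Set ℝ} (hI : MeasurableSet I) (hI0 : I ⊆ Ioi 0) :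
    mB (km I) = (mB (km (Ioi 0))).restrict (univ ×ˢ I) := by
  have h : km I = (km (Ioi 0)).restrict I := by
    rw [km, km, Measure.restrict_restrict hI, inter_eq_left.2 hI0]
  rw [h, ← Measure.prod_restrict, Measure.restrict_univ]

lemma integrable_mul_En {κ : Measure ℝ} {F : ℂ × ℝ → ℂ} (hF : Integrable F (mB κ)) (ν : O) :
    Integrable (fun p : ℂ × ℝ => F p * En ν p.1) (mB κ) := by
  have h1 : Integrable (fun p : ℂ × ℝ => En ν p.1 * F p) (mB κ) := by
    refine hF.bdd_mul (c := 1) ?_ (Filter.Eventually.of_forall fun p => ?_)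
    · exact ((continuous_En ν).measurable.comp measurable_fst).aestronglyMeasurable
    · rw [norm_En]
  refine h1.congr (Filter.Eventually.of_forall fun p => ?_)
  simp only [mul_comm]

lemma integral_eq_co {F : ℂ × ℝ → ℂ} (hF : Integrable F (mB (km (Ioi 0)))) {I : Set ℝ}
    (hI : MeasurableSet I) (hI0 : I ⊆ Ioi 0) (ν : O) :
    ∫ p, F p * En ν p.1 ∂(mB (km I)) = ∫ y in I, co F ν y := by
  have h1 : Integrable (fun p : ℂ × ℝ => F p * En ν p.1) (mB (km I)) := by
    rw [mB_restrict hI hI0]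
    exact (integrable_mul_En hF ν).restrict
  rw [integral_prod_symm _ h1]
  rfl

lemma integrableOn_co {F : ℂ × ℝ → ℂ} (hF : Integrable F (mB (km (Ioi 0)))) (ν : O) :
    IntegrableOn (co F ν) (Ioi 0) :=
  (integrable_mul_En hF ν).integral_prod_right

/-- the geometric decomposition of `(2^{-J} Y, Y]` -/
lemma interval_sum {G : ℝ → ℂ} (hG : IntegrableOn G (Ioi 0)) {Y : ℝ} (hY : 0 < Y) (J : ℕ) :
    ∫ y in (Y / 2 ^ J)..Y, G y =
      ∑ j ∈ Finset.range J, ∫ y in Ioc (Y / 2 ^ (j + 1)) (2 * (Y / 2 ^ (j + 1))), G y := by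
  have hii : ∀ a b : ℝ, 0 < a → 0 < b → IntervalIntegrable G volume a b := by
    intro a b ha hb
    rw [intervalIntegrable_iff]
    refine hG.mono_set fun x hx => ?_
    rw [uIoc, mem_Ioc] at hx
    exact lt_of_lt_of_le (lt_min ha hb) hx.1.le
  induction J with
  | zero => simp
  | succ J ih =>
    rw [Finset.sum_range_succ, ← ih]
    have e : 2 * (Y / 2 ^ (J + 1)) = Y / 2 ^ J := by rw [pow_succ]; field_simp
    have hle : Y / 2 ^ (J + 1) ≤ 2 * (Y / 2 ^ (J + 1)) := by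
      have : 0 < Y / 2 ^ (J + 1) := by positivity
      linarith
    rw [← intervalIntegral.integral_of_le hle, e]
    have h := intervalIntegral.integral_add_adjacent_intervals
      (hii (Y / 2 ^ (J + 1)) (Y / 2 ^ J) (by positivity) (by positivity))
      (hii (Y / 2 ^ J) Y (by positivity) hY)
    rw [← h]; ring

lemma weighted_cs (J : ℕ) (a : ℕ → ℂ) :
    ‖∑ j ∈ Finset.range J, a j‖ ^ 2 ≤ 2 * ∑ j ∈ Finset.range J, 2 ^ j * ‖a j‖ ^ 2 := by
  have h1 : ‖∑ j ∈ Finset.range J, a j‖ ≤ ∑ j ∈ Finset.range J, ‖a j‖ := norm_sum_le _ _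
  have h2 : (∑ j ∈ Finset.range J, ‖a j‖) ^ 2 ≤
      (∑ j ∈ Finset.range J, ((1 : ℝ) / 2) ^ j) * ∑ j ∈ Finset.range J, 2 ^ j * ‖a j‖ ^ 2 := by
    refine Finset.sum_sq_le_sum_mul_sum_of_sq_le_mul _ (fun j _ => by positivity)
      (fun j _ => by positivity) (fun j _ => le_of_eq ?_)
    rw [← mul_assoc, ← mul_pow]; norm_num
  have h3 : ∑ j ∈ Finset.range J, ((1 : ℝ) / 2) ^ j ≤ 2 := by
    have h := (hasSum_geometric_two).summable.sum_le_tsum (Finset.range J)
      (fun j _ => by positivity)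
    rwa [tsum_geometric_two] at h
  calc ‖∑ j ∈ Finset.range J, a j‖ ^ 2 ≤ (∑ j ∈ Finset.range J, ‖a j‖) ^ 2 := by gcongr
    _ ≤ _ := h2
    _ ≤ _ := mul_le_mul_of_nonneg_right h3 (Finset.sum_nonneg fun j _ => by positivity)

/-- sum over all dyadic strips below `Y` -/
theorem strip_sum {F : ℂ × ℝ → ℂ} (hF : Integrable F (mB (km (Ioi 0)))) {A : ℝ} (hA : 0 ≤ A)
    (hb : ∀ a : ℝ, 0 < a → ∫⁻ p, ‖F p‖ₑ ^ 2 ∂(mB (km (Ioc a (2 * a)))) ≤
      ENNReal.ofReal (A * (a ^ 3 + a))) {Y : ℝ} (hY : 0 < Y) (S : Finset O) :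
    ∑ ν ∈ S, ‖∫ p, F p * En ν p.1 ∂(mB (km (Ioc 0 Y)))‖ ^ 2 ≤
      volume.real B * A * (Y ^ 4 + Y ^ 2) := by
  have hstrip : ∀ a : ℝ, 0 < a → ∑ ν ∈ S, ‖∫ y in Ioc a (2 * a), co F ν y‖ ^ 2 ≤
      volume.real B * A * (a ^ 4 + a ^ 2) := by
    intro a ha
    have hs : Ioc a (2 * a) ⊆ Ioi 0 := fun x hx => ha.trans hx.1
    have h1 := strip_one ha (by rw [mB_restrict measurableSet_Ioc hs]; exact hF.1.restrict)
      (A := A * (a ^ 3 + a)) (by positivity) (hb a ha) S
    simp_rw [integral_eq_co hF measurableSet_Ioc hs] at h1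
    refine h1.trans (le_of_eq ?_)
    ring
  have hJ : ∀ J : ℕ, ∑ ν ∈ S, ‖∫ y in (Y / 2 ^ J)..Y, co F ν y‖ ^ 2 ≤
      volume.real B * A * (Y ^ 4 + Y ^ 2) := by
    intro J
    have h1 : ∀ ν, ‖∫ y in (Y / 2 ^ J)..Y, co F ν y‖ ^ 2 ≤ 2 * ∑ j ∈ Finset.range J, 2 ^ j *
        ‖∫ y in Ioc (Y / 2 ^ (j + 1)) (2 * (Y / 2 ^ (j + 1))), co F ν y‖ ^ 2 := by
      intro ν
      rw [interval_sum (integrableOn_co hF ν) hY]
      exact weighted_cs J _
    calc ∑ ν ∈ S, ‖∫ y in (Y / 2 ^ J)..Y, co F ν y‖ ^ 2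
        ≤ ∑ ν ∈ S, 2 * ∑ j ∈ Finset.range J, 2 ^ j *
        ‖∫ y in Ioc (Y / 2 ^ (j + 1)) (2 * (Y / 2 ^ (j + 1))), co F ν y‖ ^ 2 :=
          Finset.sum_le_sum fun ν _ => h1 ν
      _ = 2 * ∑ j ∈ Finset.range J, 2 ^ j * ∑ ν ∈ S,
        ‖∫ y in Ioc (Y / 2 ^ (j + 1)) (2 * (Y / 2 ^ (j + 1))), co F ν y‖ ^ 2 := by
          rw [← Finset.mul_sum, Finset.sum_comm]
          simp_rw [Finset.mul_sum]
      _ ≤ 2 * ∑ j ∈ Finset.range J, 2 ^ j * (volume.real B * A *
          ((Y / 2 ^ (j + 1)) ^ 4 + (Y / 2 ^ (j + 1)) ^ 2)) := by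
          gcongr with j _
          exact hstrip _ (by positivity)
      _ ≤ 2 * ∑ j ∈ Finset.range J, (volume.real B * A * (Y ^ 4 + Y ^ 2)) / 4 * (1 / 2) ^ j := by
          refine mul_le_mul_of_nonneg_left (Finset.sum_le_sum fun j _ => ?_) (by norm_num)
          have hq : (0 : ℝ) < 2 ^ j := by positivity
          have hq1 : (1 : ℝ) ≤ 2 ^ j := one_le_pow₀ (by norm_num)
          have e1 : (2 : ℝ) ^ j * (Y / 2 ^ (j + 1)) ^ 2 = Y ^ 2 / 4 * (1 / 2) ^ j := by
            rw [one_div, inv_pow, pow_succ' 2 j]; field_simp; ring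
          have e2 : (2 : ℝ) ^ j * (Y / 2 ^ (j + 1)) ^ 4 ≤ Y ^ 4 / 4 * (1 / 2) ^ j := by
            have e3 : (2 : ℝ) ^ j * (Y / 2 ^ (j + 1)) ^ 4 =
                Y ^ 4 / 4 * (1 / 2) ^ j * (1 / (4 * (2 ^ j * 2 ^ j))) := by
              rw [one_div, inv_pow, pow_succ' 2 j]
              field_simp; ring
            rw [e3]
            refine mul_le_of_le_one_right (by positivity) ?_
            rw [div_le_one (by positivity)]
            nlinarith
          have hV : 0 ≤ volume.real B * A := by positivity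
          calc (2 : ℝ) ^ j * (volume.real B * A * ((Y / 2 ^ (j + 1)) ^ 4 + (Y / 2 ^ (j + 1)) ^ 2))
              = volume.real B * A * (2 ^ j * (Y / 2 ^ (j + 1)) ^ 4 +
                2 ^ j * (Y / 2 ^ (j + 1)) ^ 2) := by ring
            _ ≤ volume.real B * A * (Y ^ 4 / 4 * (1 / 2) ^ j + Y ^ 2 / 4 * (1 / 2) ^ j) := by
                rw [e1]; gcongr
            _ = _ := by ring
      _ = (volume.real B * A * (Y ^ 4 + Y ^ 2)) * ((1 / 2) * ∑ j ∈ Finset.range J, (1 / 2) ^ j) := by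
          rw [← Finset.mul_sum]; ring
      _ ≤ (volume.real B * A * (Y ^ 4 + Y ^ 2)) * 1 := by
          gcongr
          have h := (hasSum_geometric_two).summable.sum_le_tsum (Finset.range J)
            (fun j _ => by positivity)
          rw [tsum_geometric_two] at h
          linarith
      _ = _ := mul_one _
  -- limit `J → ∞`
  have hlim : Tendsto (fun J : ℕ => ∑ ν ∈ S, ‖∫ y in (Y / 2 ^ J)..Y, co F ν y‖ ^ 2) atTop
      (𝓝 (∑ ν ∈ S, ‖∫ p, F p * En ν p.1 ∂(mB (km (Ioc 0 Y)))‖ ^ 2)) := by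
    refine tendsto_finsetSum _ fun ν _ => ?_
    refine Tendsto.pow (Tendsto.norm ?_) 2
    rw [integral_eq_co hF measurableSet_Ioc Ioc_subset_Ioi_self,
      ← intervalIntegral.integral_of_le hY.le]
    have hii : IntervalIntegrable (co F ν) volume 0 Y := by
      rw [intervalIntegrable_iff, uIoc_of_le hY.le]
      exact (integrableOn_co hF ν).mono_set Ioc_subset_Ioi_self
    have h0 : Tendsto (fun J : ℕ => Y / 2 ^ J) atTop (𝓝 0) := by
      have := tendsto_pow_atTop_nhds_zero_of_lt_one (r := (1 / 2 : ℝ)) (by norm_num) (by norm_num)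
      have h2 := this.const_mul Y
      rw [mul_zero] at h2
      refine h2.congr fun J => ?_
      rw [one_div, inv_pow]; rfl
    have hc : ContinuousOn (fun x => ∫ y in x..Y, co F ν y) (uIcc 0 Y) := by
      refine intervalIntegral.continuousOn_primitive_interval_left ?_
      rw [uIcc_of_le hY.le, integrableOn_Icc_iff_integrableOn_Ioc]
      exact (integrableOn_co hF ν).mono_set Ioc_subset_Ioi_self
    have hc0 := hc 0 left_mem_uIcc
    refine hc0.tendsto.comp ?_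
    rw [tendsto_nhdsWithin_iff]
    refine ⟨h0, Eventually.of_forall fun J => ?_⟩
    rw [uIcc_of_le hY.le]
    exact ⟨by positivity, div_le_self hY.le (one_le_pow₀ (by norm_num))⟩
  exact le_of_tendsto' hlim hJ

end Vale.Agent.P006.FC
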