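import Mathlib.Analysis.Fourier.FourierTransformDeriv
import Mathlib.Analysis.SpecialFunctions.ImproperIntegrals
import Mathlib.MeasureTheory.Integral.IntegralEqImproper

/-!
P006, block FC (K6): one dimensional oscillatory integral of `T(a x^2 + b)`.
-/

open MeasureTheory Set Filter
open scoped Topology ContDiff BigOperators FourierTransform

namespace Vale.Agent.P006.FC

/-- iterated derivatives of `x ↦ T (a x^2 + b)` -/
theorem iteratedDeriv_quad (n : ℕ) : ∃ c : ℕ → ℝ, (∀ i, 2 * i < n → c i = 0) ∧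
    ∀ (T : ℝ → ℂ), ContDiff ℝ ∞ T → ∀ a b x : ℝ,
      iteratedDeriv n (fun x : ℝ => T (a * x ^ 2 + b)) x =
        ∑ i ∈ Finset.range (n + 1), ((c i * a ^ i * x ^ (2 * i - n) : ℝ) : ℂ) *
          iteratedDeriv i T (a * x ^ 2 + b) := by
  induction n with
  | zero =>
    refine ⟨fun _ => 1, fun i hi => by omega, fun T _ a b x => ?_⟩
    simp
  | succ n ih =>
    obtain ⟨c, hc0, hc⟩ := ih
    refine ⟨fun i => (if i ≤ n then c i * ((2 * i : ℝ) - n) else 0) +
      (if i = 0 then 0 else 2 * c (i - 1)), ?_, ?_⟩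
    · intro i hi
      have h1 : (if i ≤ n then c i * ((2 * i : ℝ) - n) else 0) = 0 := by
        split_ifs
        · rcases Nat.lt_or_ge (2 * i) n with h | h
          · rw [hc0 i h, zero_mul]
          · have : 2 * i = n := by omega
            have : (2 * i : ℝ) = n := by exact_mod_cast this
            rw [this, sub_self, mul_zero]
        · rfl
      simp only [h1, zero_add]
      split_ifs with h0
      · rfl
      · rw [hc0 (i - 1) (by omega), mul_zero]
    · intro T hT a b x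
      rw [iteratedDeriv_succ]
      have e1 : iteratedDeriv n (fun x : ℝ => T (a * x ^ 2 + b)) = fun x =>
          ∑ i ∈ Finset.range (n + 1), ((c i * a ^ i * x ^ (2 * i - n) : ℝ) : ℂ) *
          iteratedDeriv i T (a * x ^ 2 + b) := by
        funext y; exact hc T hT a b y
      rw [e1]
      have hd : ∀ i ∈ Finset.range (n + 1), HasDerivAt (fun x : ℝ =>
          ((c i * a ^ i * x ^ (2 * i - n) : ℝ) : ℂ) * iteratedDeriv i T (a * x ^ 2 + b))
          (((c i * ((2 * i : ℝ) - n) * a ^ i * x ^ (2 * i - (n + 1)) : ℝ) : ℂ) *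
            iteratedDeriv i T (a * x ^ 2 + b) +
          ((2 * c i * a ^ (i + 1) * x ^ (2 * (i + 1) - (n + 1)) : ℝ) : ℂ) *
            iteratedDeriv (i + 1) T (a * x ^ 2 + b)) x := by
        intro i _
        by_cases hi : 2 * i < n
        · rw [hc0 i hi]
          simpa using hasDerivAt_const x (0 : ℂ)
        · have hi' : n ≤ 2 * i := by omega
          have h1 : HasDerivAt (fun x : ℝ => c i * a ^ i * x ^ (2 * i - n))
              (c i * a ^ i * (((2 * i - n : ℕ) : ℝ) * x ^ (2 * i - n - 1))) x := by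
            simpa using (hasDerivAt_pow (2 * i - n) x).const_mul (c i * a ^ i)
          have h2 : HasDerivAt (fun x : ℝ => a * x ^ 2 + b) (a * (2 * x)) x := by
            simpa using ((hasDerivAt_pow 2 x).const_mul a).add_const b
          have h3 : HasDerivAt (iteratedDeriv i T) (iteratedDeriv (i + 1) T (a * x ^ 2 + b))
              (a * x ^ 2 + b) := by
            rw [iteratedDeriv_succ]
            have : Differentiable ℝ (iteratedDeriv i T) :=
              hT.differentiable_iteratedDeriv i (by exact_mod_cast (WithTop.coe_lt_top _))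
            exact (this _).hasDerivAt
          have h4 := h3.scomp x h2
          have h5 := h1.ofReal_comp.mul h4
          refine h5.congr_deriv ?_
          simp only [Function.comp, Complex.real_smul]
          have e2 : ((2 * i - n : ℕ) : ℝ) = 2 * i - n := by
            rw [Nat.cast_sub hi']; push_cast; ring
          have e3 : 2 * i - n - 1 = 2 * i - (n + 1) := by omega
          have e4 : 2 * (i + 1) - (n + 1) = (2 * i - n) + 1 := by omega
          rw [e2, e3, e4, pow_succ a i, pow_succ x (2 * i - n)]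
          push_cast
          ring
      rw [(HasDerivAt.fun_sum hd).deriv, Finset.sum_add_distrib]
      have s1 : ∑ i ∈ Finset.range (n + 1), (((c i * ((2 * i : ℝ) - n) * a ^ i *
          x ^ (2 * i - (n + 1)) : ℝ) : ℂ) * iteratedDeriv i T (a * x ^ 2 + b)) =
          ∑ i ∈ Finset.range (n + 1 + 1), ((((if i ≤ n then c i * ((2 * i : ℝ) - n) else 0) *
            a ^ i * x ^ (2 * i - (n + 1)) : ℝ) : ℂ) * iteratedDeriv i T (a * x ^ 2 + b)) := by
        rw [Finset.sum_range_succ (n := n + 1)]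
        rw [if_neg (by omega)]
        simp only [zero_mul, Complex.ofReal_zero, add_zero]
        refine Finset.sum_congr rfl fun i hi => ?_
        rw [Finset.mem_range] at hi
        rw [if_pos (by omega)]
      have s2 : ∑ i ∈ Finset.range (n + 1), (((2 * c i * a ^ (i + 1) *
          x ^ (2 * (i + 1) - (n + 1)) : ℝ) : ℂ) * iteratedDeriv (i + 1) T (a * x ^ 2 + b)) =
          ∑ i ∈ Finset.range (n + 1 + 1), ((((if i = 0 then 0 else 2 * c (i - 1)) *
            a ^ i * x ^ (2 * i - (n + 1)) : ℝ) : ℂ) * iteratedDeriv i T (a * x ^ 2 + b)) := by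
        rw [Finset.sum_range_succ' (n := n + 1)]
        simp
      rw [s1, s2, ← Finset.sum_add_distrib]
      refine Finset.sum_congr rfl fun i _ => ?_
      push_cast
      ring

/-- the decay condition of order `n` with constant `D` -/
def Dc (T : ℝ → ℂ) (n : ℕ) (D : ℝ) : Prop :=
  ∀ i ≤ n, ∀ x : ℝ, 0 ≤ x → x ^ i * ‖iteratedDeriv i T x‖ * (1 + x) ^ 4 ≤ D

lemma Dc.nonneg {T : ℝ → ℂ} {n : ℕ} {D : ℝ} (h : Dc T n D) : 0 ≤ D :=
  le_trans (by positivity) (h 0 (Nat.zero_le _) 0 le_rfl)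

lemma Dc.mono {T : ℝ → ℂ} {n m : ℕ} {D : ℝ} (h : Dc T n D) (hm : m ≤ n) : Dc T m D :=
  fun i hi x hx => h i (hi.trans hm) x hx

/-- pointwise bound of the iterated derivative -/
theorem norm_iteratedDeriv_quad_le (n : ℕ) : ∃ C : ℝ, 0 ≤ C ∧
    ∀ (T : ℝ → ℂ), ContDiff ℝ ∞ T → ∀ D : ℝ, Dc T n D → ∀ a b y x : ℝ, 0 < a → 0 < y →
      a * y ^ 2 ≤ b →
      ‖iteratedDeriv n (fun x : ℝ => T (a * x ^ 2 + b)) x‖ ≤
        C * D / y ^ n * ((1 + (a * x ^ 2 + b)) ^ 4)⁻¹ := by
  obtain ⟨c, hc0, hc⟩ := iteratedDeriv_quad n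
  refine ⟨∑ i ∈ Finset.range (n + 1), |c i|, Finset.sum_nonneg fun i _ => abs_nonneg _, ?_⟩
  intro T hT D hD a b y x ha hy hb
  rw [hc T hT a b x]
  set z := a * x ^ 2 + b with hz
  have hb0 : 0 < b := lt_of_lt_of_le (by positivity) hb
  have hz0 : 0 < z := by positivity
  refine (norm_sum_le _ _).trans ?_
  rw [mul_div_assoc, mul_assoc, Finset.sum_mul]
  refine Finset.sum_le_sum fun i hi => ?_
  rw [Finset.mem_range] at hi
  rw [norm_mul, Complex.norm_real, Real.norm_eq_abs, abs_mul, abs_mul, mul_assoc, mul_assoc]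
  by_cases h2 : 2 * i < n
  · rw [hc0 i h2]; simp
  · refine mul_le_mul_of_nonneg_left ?_ (abs_nonneg _)
    have hi' : n ≤ 2 * i := by omega
    have h1 := hD i (by omega) z hz0.le
    -- `a^i |x|^(2i-n) ≤ z^i / y^n`
    have h3 : |a ^ i| * |x ^ (2 * i - n)| ≤ z ^ i / y ^ n := by
      rw [le_div_iff₀ (by positivity)]
      refine abs_le_of_sq_le_sq' ?_ (by positivity) |>.2
      have e1 : (|a ^ i| * |x ^ (2 * i - n)| * y ^ n) ^ 2 =
          (a * x ^ 2) ^ (2 * i - n) * (a * y ^ 2) ^ n := by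
        rw [mul_pow, mul_pow, sq_abs, sq_abs, mul_pow, mul_pow, ← pow_mul, ← pow_mul, ← pow_mul,
          ← pow_mul, ← pow_mul]
        have : a ^ (i * 2) = a ^ (2 * i - n) * a ^ n := by rw [← pow_add]; congr 1; omega
        rw [this, mul_comm (2 * i - n) 2, mul_comm n 2]
        ring
      have e2 : (z ^ i) ^ 2 = z ^ (2 * i - n) * z ^ n := by
        rw [← pow_mul, ← pow_add]; congr 1; omega
      rw [e1, e2]
      have h4 : a * x ^ 2 ≤ z := by rw [hz]; linarith
      have h5 : a * y ^ 2 ≤ z := by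
        have : 0 ≤ a * x ^ 2 := by positivity
        rw [hz]; linarith
      exact mul_le_mul (pow_le_pow_left₀ (by positivity) h4 _)
        (pow_le_pow_left₀ (by positivity) h5 _) (by positivity) (by positivity)
    have h6 : 0 < (1 + z) ^ 4 := by positivity
    calc |a ^ i| * (|x ^ (2 * i - n)| * ‖iteratedDeriv i T z‖)
        = (|a ^ i| * |x ^ (2 * i - n)|) * ‖iteratedDeriv i T z‖ := by ring
      _ ≤ z ^ i / y ^ n * ‖iteratedDeriv i T z‖ := by gcongr
      _ = (z ^ i * ‖iteratedDeriv i T z‖ * (1 + z) ^ 4) / y ^ n * ((1 + z) ^ 4)⁻¹ := by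
          field_simp
      _ ≤ D / y ^ n * ((1 + z) ^ 4)⁻¹ := by gcongr

lemma inv_quad_eq {a : ℝ} (ha : 0 < a) : (fun x : ℝ => (1 + a * x ^ 2)⁻¹) =
    fun x : ℝ => (fun t : ℝ => (1 + t ^ 2)⁻¹) (Real.sqrt a * x) := by
  funext x
  simp only
  rw [mul_pow, Real.sq_sqrt ha.le]

lemma integrable_inv_quad {a : ℝ} (ha : 0 < a) : Integrable fun x : ℝ => (1 + a * x ^ 2)⁻¹ := by
  rw [inv_quad_eq ha]
  exact (integrable_inv_one_add_sq).comp_mul_left' (Real.sqrt_pos.2 ha).ne'

lemma integral_inv_quad {a : ℝ} (ha : 0 < a) :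
    ∫ x : ℝ, (1 + a * x ^ 2)⁻¹ = Real.pi / Real.sqrt a := by
  have h := Measure.integral_comp_mul_left (fun t : ℝ => (1 + t ^ 2)⁻¹) (Real.sqrt a)
  rw [inv_quad_eq ha, h, integral_univ_inv_one_add_sq, smul_eq_mul,
    abs_of_pos (inv_pos.2 (Real.sqrt_pos.2 ha))]
  field_simp

lemma quad_le {a b x : ℝ} (ha : 0 < a) (hb : 0 ≤ b) :
    ((1 + (a * x ^ 2 + b)) ^ 4)⁻¹ ≤ ((1 + b) ^ 3)⁻¹ * (1 + a * x ^ 2)⁻¹ := by
  rw [← mul_inv]
  have h1 : 0 ≤ a * x ^ 2 := by positivity
  refine inv_anti₀ (by positivity) ?_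
  calc (1 + b) ^ 3 * (1 + a * x ^ 2) ≤ (1 + (a * x ^ 2 + b)) ^ 3 * (1 + (a * x ^ 2 + b)) := by
        gcongr <;> linarith
    _ = _ := by ring

/-- **one dimensional oscillatory bound** -/
theorem osc_1d (n : ℕ) : ∃ C : ℝ, 0 ≤ C ∧
    ∀ (T : ℝ → ℂ), ContDiff ℝ ∞ T → ∀ D : ℝ, Dc T n D → ∀ a b y k : ℝ, 0 < a → 0 < y →
      a * y ^ 2 ≤ b → 0 < k →
      ‖∫ x : ℝ, T (a * x ^ 2 + b) * Complex.exp (((-(k * x) : ℝ) : ℂ) * Complex.I)‖ ≤
        C * D * ((k * y) ^ n)⁻¹ * ((1 + b) ^ 3)⁻¹ * (Real.sqrt a)⁻¹ := by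
  choose Cf hCf0 hCf using norm_iteratedDeriv_quad_le
  refine ⟨Cf n * Real.pi, mul_nonneg (hCf0 n) Real.pi_pos.le, ?_⟩
  intro T hT D hD a b y k ha hy hb hk
  have hb0 : 0 < b := lt_of_lt_of_le (by positivity) hb
  set F : ℝ → ℂ := fun x : ℝ => T (a * x ^ 2 + b) with hF
  have hFs : ContDiff ℝ ∞ F := hT.comp (by fun_prop)
  have hbd : ∀ i ≤ n, ∀ x, ‖iteratedDeriv i F x‖ ≤
      (Cf i * D / y ^ i * ((1 + b) ^ 3)⁻¹) * (1 + a * x ^ 2)⁻¹ := by
    intro i hi x
    have hD0 := hD.nonneg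
    have h1 := hCf i T hT D (hD.mono hi) a b y x ha hy hb
    have h2 : 0 ≤ Cf i * D / y ^ i := by have := hCf0 i; positivity
    calc ‖iteratedDeriv i F x‖ ≤ Cf i * D / y ^ i * ((1 + (a * x ^ 2 + b)) ^ 4)⁻¹ := h1
      _ ≤ Cf i * D / y ^ i * (((1 + b) ^ 3)⁻¹ * (1 + a * x ^ 2)⁻¹) :=
        mul_le_mul_of_nonneg_left (quad_le ha hb0.le) h2
      _ = _ := by ring
  have hint : ∀ i : ℕ, (i : ℕ∞) ≤ (n : ℕ∞) → Integrable (iteratedDeriv i F) := by
    intro i hi
    have hi' : i ≤ n := by exact_mod_cast hi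
    refine Integrable.mono' ((integrable_inv_quad ha).const_mul _) ?_
      (Eventually.of_forall (hbd i hi'))
    exact (hFs.continuous_iteratedDeriv i (by exact_mod_cast le_top)).aestronglyMeasurable
  have hfou := Real.fourier_iteratedDeriv (f := F) (N := (n : ℕ∞)) (n := n)
    (hFs.of_le (by exact_mod_cast le_top)) hint le_rfl
  have h1 : 𝓕 F (k / (2 * Real.pi)) =
      ∫ x : ℝ, T (a * x ^ 2 + b) * Complex.exp (((-(k * x) : ℝ) : ℂ) * Complex.I) := by
    rw [Real.fourier_real_eq_integral_exp_smul]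
    congr 1; funext x
    rw [smul_eq_mul, mul_comm, hF]
    congr 2
    have hp : Real.pi ≠ 0 := Real.pi_ne_zero
    have : -2 * Real.pi * x * (k / (2 * Real.pi)) = -(k * x) := by field_simp
    rw [this]
  have h2 := congrFun hfou (k / (2 * Real.pi))
  have h3 : (2 * Real.pi * Complex.I * ((k / (2 * Real.pi) : ℝ) : ℂ)) = (k : ℂ) * Complex.I := by
    have hp : (Real.pi : ℂ) ≠ 0 := by exact_mod_cast Real.pi_ne_zero
    push_cast; field_simp
  rw [h3, h1, smul_eq_mul] at h2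
  have h4 : k ^ n * ‖∫ x : ℝ, T (a * x ^ 2 + b) *
      Complex.exp (((-(k * x) : ℝ) : ℂ) * Complex.I)‖ ≤ ∫ x, ‖iteratedDeriv n F x‖ := by
    have h5 : ‖𝓕 (iteratedDeriv n F) (k / (2 * Real.pi))‖ ≤ ∫ x, ‖iteratedDeriv n F x‖ := by
      rw [Real.fourier_real_eq_integral_exp_smul]
      refine (norm_integral_le_integral_norm _).trans (le_of_eq ?_)
      congr 1; funext x
      rw [norm_smul]
      have : ‖Complex.exp (↑(-2 * Real.pi * x * (k / (2 * Real.pi))) * Complex.I)‖ = 1 :=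
        Complex.norm_exp_ofReal_mul_I _
      rw [this, one_mul]
    rw [h2, norm_mul, norm_pow, norm_mul, Complex.norm_I, mul_one, Complex.norm_real,
      Real.norm_of_nonneg hk.le] at h5
    exact h5
  have h6 : ∫ x, ‖iteratedDeriv n F x‖ ≤
      (Cf n * D / y ^ n * ((1 + b) ^ 3)⁻¹) * (Real.pi / Real.sqrt a) := by
    rw [← integral_inv_quad ha, ← integral_const_mul]
    exact integral_mono (hint n le_rfl).norm ((integrable_inv_quad ha).const_mul _)
      (hbd n le_rfl)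
  have hkn : 0 < k ^ n := by positivity
  have h7 := h4.trans h6
  rw [← le_div_iff₀' hkn] at h7
  refine h7.trans (le_of_eq ?_)
  rw [mul_pow]
  field_simp

end Vale.Agent.P006.FC
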