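import Vale.Agent.P006.H2.Tail1
import Vale.Agent.P006.H2.Ineq
import Vale.Agent.P006.KER.Kernel

/-!
P006, block FC (K6): bound of the tail `y > Y` of the kernel.
-/

open MeasureTheory Set Filter
open scoped Topology ContDiff BigOperators

namespace Vale.Agent.P006.FC

open Vale.Agent.P006.KER (R3 hmeas posm chr)

/-- two dimensional oscillatory bound -/
theorem osc_2d (n : ℕ) : ∃ C : ℝ, 0 ≤ C ∧
    ∀ (T : ℝ → ℂ), ContDiff ℝ ∞ T → ∀ D : ℝ, Dc T n D → ∀ a y k : ℝ, 0 < a → 0 < y → 0 < k →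
      ‖∫ w : ℂ, T (a * (‖w‖ ^ 2 + y ^ 2)) * Complex.exp (((-(k * w.re) : ℝ) : ℂ) * Complex.I)‖ ≤
        C * D * ((k * y) ^ n)⁻¹ * ((1 + a * y ^ 2) ^ 2)⁻¹ * a⁻¹ := by
  obtain ⟨C, hC0, hC⟩ := osc_1d n
  refine ⟨C * Real.pi, by positivity, ?_⟩
  intro T hT D hD a y k ha hy hk
  have hD0 := hD.nonneg
  set G : ℝ × ℝ → ℂ := fun p => T (a * p.1 ^ 2 + (a * p.2 ^ 2 + a * y ^ 2)) *
    Complex.exp (((-(k * p.1) : ℝ) : ℂ) * Complex.I) with hG
  have e1 : ∫ w : ℂ, T (a * (‖w‖ ^ 2 + y ^ 2)) *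
      Complex.exp (((-(k * w.re) : ℝ) : ℂ) * Complex.I) = ∫ p : ℝ × ℝ, G p := by
    rw [← Complex.volume_preserving_equiv_real_prod.integral_comp'
      (f := Complex.measurableEquivRealProd) G]
    congr 1; funext w
    simp only [hG, Complex.measurableEquivRealProd_apply]
    congr 2
    rw [← Complex.normSq_eq_norm_sq, Complex.normSq_apply]; ring
  have hTc : Continuous T := hT.continuous
  have hGc : Continuous G := by rw [hG]; fun_prop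
  have hGb : ∀ p : ℝ × ℝ, ‖G p‖ ≤ D * ((1 + a * p.1 ^ 2)⁻¹ * (1 + a * p.2 ^ 2)⁻¹) := by
    intro p
    rw [hG]
    simp only
    rw [norm_mul, Complex.norm_exp_ofReal_mul_I, mul_one]
    set z := a * p.1 ^ 2 + (a * p.2 ^ 2 + a * y ^ 2) with hz
    have hz0 : 0 ≤ z := by positivity
    have h1 := hD 0 (Nat.zero_le _) z hz0
    simp only [pow_zero, one_mul, iteratedDeriv_zero] at h1
    have h2 : ‖T z‖ ≤ D * ((1 + z) ^ 4)⁻¹ := by
      rw [← div_eq_mul_inv, le_div_iff₀ (by positivity)]; exact h1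
    refine h2.trans (mul_le_mul_of_nonneg_left ?_ hD0)
    rw [← mul_inv]
    refine inv_anti₀ (by positivity) ?_
    have h3 : 0 ≤ a * p.1 ^ 2 := by positivity
    have h4 : 0 ≤ a * p.2 ^ 2 := by positivity
    have h5 : 0 ≤ a * y ^ 2 := by positivity
    calc (1 + a * p.1 ^ 2) * (1 + a * p.2 ^ 2) ≤ (1 + z) * (1 + z) := by
          gcongr <;> rw [hz] <;> linarith
      _ = (1 + z) ^ 2 := by ring
      _ ≤ (1 + z) ^ 4 := pow_le_pow_right₀ (by linarith) (by norm_num)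
  have hGint : Integrable G (volume.prod volume) := by
    refine Integrable.mono' (((integrable_inv_quad ha).mul_prod (integrable_inv_quad ha)).const_mul D)
      hGc.aestronglyMeasurable (Eventually.of_forall hGb)
  rw [e1, Measure.volume_eq_prod, integral_prod_symm _ hGint]
  have h7 : ∀ v : ℝ, ‖∫ x : ℝ, G (x, v)‖ ≤
      C * D * ((k * y) ^ n)⁻¹ * ((1 + a * y ^ 2) ^ 2)⁻¹ * (Real.sqrt a)⁻¹ *
        (1 + a * v ^ 2)⁻¹ := by
    intro v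
    have hb : a * y ^ 2 ≤ a * v ^ 2 + a * y ^ 2 := by
      have : 0 ≤ a * v ^ 2 := by positivity
      linarith
    have h8 := hC T hT D hD a (a * v ^ 2 + a * y ^ 2) y k ha hy hb hk
    refine h8.trans ?_
    have h9 : ((1 + (a * v ^ 2 + a * y ^ 2)) ^ 3)⁻¹ ≤
        ((1 + a * y ^ 2) ^ 2)⁻¹ * (1 + a * v ^ 2)⁻¹ := by
      rw [← mul_inv]
      refine inv_anti₀ (by positivity) ?_
      have h4 : 0 ≤ a * v ^ 2 := by positivity
      have h5 : 0 ≤ a * y ^ 2 := by positivity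
      calc (1 + a * y ^ 2) ^ 2 * (1 + a * v ^ 2)
          ≤ (1 + (a * v ^ 2 + a * y ^ 2)) ^ 2 * (1 + (a * v ^ 2 + a * y ^ 2)) := by
            gcongr <;> linarith
        _ = _ := by ring
    calc C * D * ((k * y) ^ n)⁻¹ * ((1 + (a * v ^ 2 + a * y ^ 2)) ^ 3)⁻¹ * (Real.sqrt a)⁻¹
        ≤ C * D * ((k * y) ^ n)⁻¹ * (((1 + a * y ^ 2) ^ 2)⁻¹ * (1 + a * v ^ 2)⁻¹) *
          (Real.sqrt a)⁻¹ := by gcongr
      _ = _ := by ring
  calc ‖∫ v : ℝ, ∫ x : ℝ, G (x, v)‖ ≤ ∫ v : ℝ, ‖∫ x : ℝ, G (x, v)‖ :=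
        norm_integral_le_integral_norm _
    _ ≤ ∫ v : ℝ, C * D * ((k * y) ^ n)⁻¹ * ((1 + a * y ^ 2) ^ 2)⁻¹ * (Real.sqrt a)⁻¹ *
        (1 + a * v ^ 2)⁻¹ :=
      integral_mono hGint.integral_prod_right.norm ((integrable_inv_quad ha).const_mul _) h7
    _ = C * D * ((k * y) ^ n)⁻¹ * ((1 + a * y ^ 2) ^ 2)⁻¹ * (Real.sqrt a)⁻¹ *
        (Real.pi / Real.sqrt a) := by rw [integral_const_mul, integral_inv_quad ha]
    _ = _ := by
      have hs : Real.sqrt a * Real.sqrt a = a := Real.mul_self_sqrt ha.le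
      have hs0 := Real.sqrt_pos.2 ha
      have e2 : (Real.sqrt a)⁻¹ * (Real.pi / Real.sqrt a) = Real.pi * a⁻¹ := by
        rw [div_eq_mul_inv, mul_left_comm, ← mul_inv, hs]
      rw [mul_assoc (C * D * ((k * y) ^ n)⁻¹ * ((1 + a * y ^ 2) ^ 2)⁻¹), e2]
      ring

/-- the dual point of the frequency `ν` -/
noncomputable def mun (ν : O) : ℂ := -(toC ν / toC lam ^ 3)

/-- the size `k_ν = 4π|μ_ν|` of the frequency `ν` -/
noncomputable def kf (ν : O) : ℝ := 4 * Real.pi * ‖mun ν‖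

lemma mun_ne {ν : O} (hν : ν ≠ 0) : mun ν ≠ 0 := by
  have h1 : toC ν ≠ 0 := by simpa using hν
  exact neg_ne_zero.2 (div_ne_zero h1 (pow_ne_zero 3 toC_lam_ne))

lemma kf_pos {ν : O} (hν : ν ≠ 0) : 0 < kf ν := by
  have := norm_pos_iff.2 (mun_ne hν)
  unfold kf; positivity

lemma En_eq_chr (ν : O) (z : ℂ) : En ν z = chr (mun ν) z := by
  rw [En, chr, e, mun, TrC]
  congr 1
  have : (-(toC ν / toC lam ^ 3) * z).re = -(toC ν * z / toC lam ^ 3).re := by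
    rw [← Complex.neg_re]; congr 1; ring
  rw [this]
  push_cast
  ring

/-- bound of the fixed-height kernel -/
theorem kernel_height (n : ℕ) : ∃ C : ℝ, 0 ≤ C ∧
    ∀ (T : ℝ → ℂ), ContDiff ℝ ∞ T → ∀ D : ℝ, Dc T n D → ∀ (κ m y : ℝ) (ν : O), 0 < κ → 0 < m →
      0 < y → ν ≠ 0 →
      ‖∫ z : ℂ, T (κ * (m * (‖z‖ ^ 2 + y ^ 2) / y)) * En ν z‖ ≤
        C * D * (κ ^ 3)⁻¹ * (kf ν ^ n)⁻¹ * (m ^ 3)⁻¹ * (y ^ (n + 1))⁻¹ := by
  obtain ⟨C, hC0, hC⟩ := osc_2d n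
  refine ⟨C, hC0, ?_⟩
  intro T hT D hD κ m y ν hκ hm hy hν
  have hk := kf_pos hν
  have hD0 := hD.nonneg
  have hμn : 0 < ‖mun ν‖ := norm_pos_iff.2 (mun_ne hν)
  set a : ℝ := κ * m / y with ha
  have ha0 : 0 < a := by positivity
  -- rotation
  have hu : ‖mun ν / ‖mun ν‖‖ = 1 := by
    rw [norm_div, Complex.norm_real, norm_norm, div_self hμn.ne']
  obtain ⟨u, hu'⟩ : ∃ u : Circle, (u : ℂ) = mun ν / ‖mun ν‖ :=
    ⟨⟨mun ν / ‖mun ν‖, mem_sphere_zero_iff_norm.2 hu⟩, rfl⟩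
  have h1 : MeasurePreserving (rotation u) volume volume := (rotation u).measurePreserving
  have e1 : ∫ z : ℂ, T (κ * (m * (‖z‖ ^ 2 + y ^ 2) / y)) * En ν z =
      ∫ w : ℂ, T (a * (‖w‖ ^ 2 + y ^ 2)) * Complex.exp (((-(kf ν * w.re) : ℝ) : ℂ) * Complex.I) := by
    have h5 := h1.integral_comp (rotation u).toHomeomorph.measurableEmbedding
      (fun w : ℂ => T (a * (‖w‖ ^ 2 + y ^ 2)) *
        Complex.exp (((-(kf ν * w.re) : ℝ) : ℂ) * Complex.I))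
    rw [← h5]
    congr 1; funext z
    rw [rotation_apply, norm_mul, Circle.norm_coe, one_mul]
    congr 1
    · congr 1; rw [ha]; ring
    · rw [En_eq_chr, chr, hu', kf]
      congr 3
      have hc : (‖mun ν‖ : ℂ) ≠ 0 := by exact_mod_cast hμn.ne'
      have : mun ν * z = (‖mun ν‖ : ℂ) * (mun ν / ‖mun ν‖ * z) := by field_simp
      rw [this, Complex.re_ofReal_mul]
      ring
  rw [e1]
  refine (hC T hT D hD a y (kf ν) ha0 hy hk).trans ?_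
  have h2 : ((1 + a * y ^ 2) ^ 2)⁻¹ ≤ ((a * y ^ 2) ^ 2)⁻¹ := by
    refine inv_anti₀ (by positivity) ?_
    gcongr
    linarith [show 0 ≤ a * y ^ 2 by positivity]
  calc C * D * ((kf ν * y) ^ n)⁻¹ * ((1 + a * y ^ 2) ^ 2)⁻¹ * a⁻¹
      ≤ C * D * ((kf ν * y) ^ n)⁻¹ * ((a * y ^ 2) ^ 2)⁻¹ * a⁻¹ := by gcongr
    _ = C * D * (κ ^ 3)⁻¹ * (kf ν ^ n)⁻¹ * (m ^ 3)⁻¹ * (y ^ (n + 1))⁻¹ := by
      rw [ha, mul_pow, pow_succ y n]
      field_simp

end Vale.Agent.P006.FC
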