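import Vale.Agent.P006.H2.Iface
import Vale.Agent.P006.KER.Decay

/-!
P006, block FC (K6): bound of `tail (Phi (tw U t) K B) Y ν`, and the class `CLf`.
-/

open MeasureTheory Set Filter
open scoped Topology ContDiff

namespace Vale.Agent.P006.FC

open Vale.Agent.P006.KER (Nice Phi tw hmeas Tf hW)

section cl

variable {f g : ℝ → ℂ}

lemma CLf.add (hf : CLf f) (hg : CLf g) : CLf fun x => f x + g x := by
  obtain ⟨C, hC0, hC⟩ := hf.bound
  obtain ⟨D, hD0, hD⟩ := hg.bound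
  refine ⟨hf.meas.add hg.meas, C + D, by positivity, fun x hx => ?_⟩
  refine (norm_add_le _ _).trans ((add_le_add (hC x hx) (hD x hx)).trans (le_of_eq ?_))
  ring

lemma CLf.const_mul (hf : CLf f) (c : ℂ) : CLf fun x => c * f x := by
  obtain ⟨C, hC0, hC⟩ := hf.bound
  refine ⟨hf.meas.const_mul c, ‖c‖ * C, by positivity, fun x hx => ?_⟩
  rw [norm_mul, mul_assoc]
  exact mul_le_mul_of_nonneg_left (hC x hx) (norm_nonneg _)

lemma CLf.sub_const_mul (hf : CLf f) (hg : CLf g) (c : ℂ) : CLf fun x => f x - c * g x := by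
  have h := hf.add (hg.const_mul (-c))
  refine ⟨hf.meas.sub (hg.meas.const_mul c), ?_⟩
  obtain ⟨C, hC0, hC⟩ := h.bound
  refine ⟨C, hC0, fun x hx => ?_⟩
  have := hC x hx
  rwa [neg_mul, ← sub_eq_add_neg] at this

theorem CLf_Phi {W : ℝ → ℂ} {a b : ℝ} (H : Nice W a b) {K B : ℝ} (hK : 0 < K) (hB : 0 < B) :
    CLf (Phi W K B) := by
  obtain ⟨C, hC0, hC⟩ := KER.Phi_rapid H hK hB 4
  refine ⟨(KER.continuous_Phi H K B).measurable, C, hC0, fun x hx => ?_⟩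
  have := hC x
  rw [abs_of_pos hx] at this
  exact_mod_cast this

end cl

lemma fd_sub (f g : ℝ → ℂ) (c : ℂ) (n : ℝ) (p : ℂ × ℝ) :
    fd (fun x => f x - c * g x) n p = fd f n p - c * fd g n p := rfl

lemma integrable_fd_En {f : ℝ → ℂ} (hf : CLf f) {I : Set ℝ} (hI0 : I ⊆ Ioi 0) (d : PD) (ν : O) :
    Integrable (fun p : ℂ × ℝ => fd f (N (d : O)) p * En ν p.1) (mH (km I)) := by
  have h1 : Integrable (fun p : ℂ × ℝ => En ν p.1 * fd f (N (d : O)) p) (mH (km I)) := by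
    refine (integrable_fd' hf hI0 d).bdd_mul (c := 1) ?_ (Filter.Eventually.of_forall fun p => ?_)
    · exact ((continuous_En ν).measurable.comp measurable_fst).aestronglyMeasurable
    · rw [norm_En]
  refine h1.congr (Filter.Eventually.of_forall fun p => ?_)
  simp only [mul_comm]

lemma tail_nonneg (f : ℝ → ℂ) (Y : ℝ) (ν : O) : 0 ≤ tail f Y ν :=
  tsum_nonneg fun _ => mul_nonneg (Nat.cast_nonneg _) (norm_nonneg _)

/-- the tail is subadditive -/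
theorem tail_sub_le {f g : ℝ → ℂ} (hf : CLf f) (hg : CLf g) (c : ℂ) {Y : ℝ} (hY : 0 ≤ Y) (ν : O) :
    tail (fun x => f x - c * g x) Y ν ≤ tail f Y ν + ‖c‖ * tail g Y ν := by
  unfold tail
  rw [← tsum_mul_left, ← (summable_tail hf hY ν).tsum_add ((summable_tail hg hY ν).mul_left _)]
  refine Summable.tsum_le_tsum (fun d => ?_) (summable_tail (hf.sub_const_mul hg c) hY ν)
    ((summable_tail hf hY ν).add ((summable_tail hg hY ν).mul_left _))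
  have h1 := integrable_fd_En hf (Ioi_subset_Ioi hY) d ν
  have h2 := integrable_fd_En hg (Ioi_subset_Ioi hY) d ν
  have e : ∫ p, fd (fun x => f x - c * g x) (N (d : O)) p * En ν p.1 ∂(mH (km (Ioi Y))) =
      ∫ p, fd f (N (d : O)) p * En ν p.1 ∂(mH (km (Ioi Y))) -
        c * ∫ p, fd g (N (d : O)) p * En ν p.1 ∂(mH (km (Ioi Y))) := by
    rw [← integral_const_mul, ← integral_sub h1 (h2.const_mul c)]
    congr 1; funext p
    rw [fd_sub]; ring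
  rw [e]
  have h3 := norm_sub_le (∫ p, fd f (N (d : O)) p * En ν p.1 ∂(mH (km (Ioi Y))))
    (c * ∫ p, fd g (N (d : O)) p * En ν p.1 ∂(mH (km (Ioi Y))))
  rw [norm_mul] at h3
  calc _ ≤ (N (d : O) : ℝ) * (‖∫ p, fd f (N (d : O)) p * En ν p.1 ∂(mH (km (Ioi Y)))‖ +
        ‖c‖ * ‖∫ p, fd g (N (d : O)) p * En ν p.1 ∂(mH (km (Ioi Y)))‖) := by gcongr
    _ = _ := by ring

/-- one term of the tail, for `f = c0 T(κ ·)` -/
theorem term_tail (n : ℕ) (hn : 0 < n) : ∃ C : ℝ, 0 ≤ C ∧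
    ∀ (W : ℝ → ℂ) (a b : ℝ), Nice W a b → ∀ D : ℝ, Dc (Tf (hW W)) n D → ∀ (K B Y : ℝ) (d : PD)
      (ν : O), 0 < K → 0 < B → 0 < Y → ν ≠ 0 →
      ‖∫ p, fd (Phi W K B) (N (d : O)) p * En ν p.1 ∂(mH (km (Ioi Y)))‖ ≤
        C * D * B ^ 3 * ((kf ν * Y) ^ n)⁻¹ * ((N (d : O) : ℝ) ^ 3)⁻¹ := by
  obtain ⟨C, hC0, hC⟩ := kernel_height n
  refine ⟨C / Real.pi ^ 2, by positivity, ?_⟩
  intro W a b H D hD K B Y d ν hK hB hY hν
  have hd := N_pos_PD d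
  have hk := kf_pos hν
  have hD0 := hD.nonneg
  have h1 := integrable_fd_En (CLf_Phi H hK hB) (Ioi_subset_Ioi hY.le) d ν
  rw [integral_prod_symm _ h1]
  have hint : IntegrableOn (fun y : ℝ => y ^ (-((n : ℝ) + 1))) (Ioi Y) :=
    integrableOn_Ioi_rpow_of_lt (by
      have : (0 : ℝ) < n := by exact_mod_cast hn
      linarith) hY
  set E : ℝ := K ^ 3 / Real.pi ^ 2 * (C * D * ((K / B) ^ 3)⁻¹ * (kf ν ^ n)⁻¹ *
    ((N (d : O) : ℝ) ^ 3)⁻¹) with hE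
  have hE0 : 0 ≤ E := by positivity
  have h2 : ∀ y ∈ Ioi Y, ‖∫ x : ℂ, fd (Phi W K B) (N (d : O)) (x, y) * En ν (x, y).1‖ ≤
      E * y ^ (-((n : ℝ) + 1)) := by
    intro y hy
    have hy0 : 0 < y := hY.trans hy
    have e1 : (∫ x : ℂ, fd (Phi W K B) (N (d : O)) (x, y) * En ν (x, y).1) =
        ((K ^ 3 / Real.pi ^ 2 : ℝ) : ℂ) * ∫ z : ℂ, Tf (hW W) (K / B *
          ((N (d : O) : ℝ) * (‖z‖ ^ 2 + y ^ 2) / y)) * En ν z := by
      rw [← integral_const_mul]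
      congr 1; funext z
      simp only [fd, Phi]
      rw [mul_assoc]
      congr 3
      ring
    rw [e1, norm_mul, Complex.norm_real, Real.norm_of_nonneg (by positivity)]
    have h3 := hC (Tf (hW W)) H.hW.Tf_smooth D hD (K / B) (N (d : O) : ℝ) y ν (by positivity) hd
      hy0 hν
    have e2 : y ^ (-((n : ℝ) + 1)) = (y ^ (n + 1))⁻¹ := by
      rw [Real.rpow_neg hy0.le]
      congr 1
      exact_mod_cast Real.rpow_natCast y (n + 1)
    rw [e2, hE]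
    calc K ^ 3 / Real.pi ^ 2 * ‖∫ z : ℂ, Tf (hW W) (K / B *
          ((N (d : O) : ℝ) * (‖z‖ ^ 2 + y ^ 2) / y)) * En ν z‖
        ≤ K ^ 3 / Real.pi ^ 2 * (C * D * ((K / B) ^ 3)⁻¹ * (kf ν ^ n)⁻¹ *
          ((N (d : O) : ℝ) ^ 3)⁻¹ * (y ^ (n + 1))⁻¹) := by gcongr
      _ = _ := by ring
  calc ‖∫ y in Ioi Y, ∫ x : ℂ, fd (Phi W K B) (N (d : O)) (x, y) * En ν (x, y).1‖
      ≤ ∫ y in Ioi Y, ‖∫ x : ℂ, fd (Phi W K B) (N (d : O)) (x, y) * En ν (x, y).1‖ :=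
        norm_integral_le_integral_norm _
    _ ≤ ∫ y in Ioi Y, E * y ^ (-((n : ℝ) + 1)) :=
        setIntegral_mono_on h1.integral_prod_right.norm (hint.const_mul E) measurableSet_Ioi h2
    _ = E * (Y ^ (-(n : ℝ)) / n) := by
        rw [integral_const_mul, integral_Ioi_rpow_of_lt (by
          have : (0 : ℝ) < n := by exact_mod_cast hn
          linarith) hY]
        have e3 : -((n : ℝ) + 1) + 1 = -n := by ring
        rw [e3]
        congr 1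
        field_simp
    _ ≤ E * (Y ^ n)⁻¹ := by
        rw [Real.rpow_neg hY.le, Real.rpow_natCast]
        refine mul_le_mul_of_nonneg_left (div_le_self (by positivity) ?_) hE0
        exact_mod_cast hn
    _ = C / Real.pi ^ 2 * D * B ^ 3 * ((kf ν * Y) ^ n)⁻¹ * ((N (d : O) : ℝ) ^ 3)⁻¹ := by
        rw [hE, mul_pow]
        field_simp

/-- decay constants of `Tf` -/
theorem Dc_Tf {U : ℝ → ℂ} {a b : ℝ} (H : Nice U a b) (n : ℕ) : ∃ C : ℝ, 0 ≤ C ∧ ∀ t : ℝ,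
    Dc (Tf (hW (tw U t))) n (C * (1 + |t|) ^ (n + 4)) := by
  choose Cf hCf0 hCf using fun i : ℕ => H.Tf_decay' (n + 4) i
  refine ⟨∑ i ∈ Finset.range (n + 1), Cf i, Finset.sum_nonneg fun i _ => hCf0 i, ?_⟩
  intro t i hi x hx
  have h1 := hCf i t x
  rw [abs_of_nonneg hx] at h1
  have h2 : Cf i ≤ ∑ i ∈ Finset.range (n + 1), Cf i :=
    Finset.single_le_sum (fun i _ => hCf0 i) (Finset.mem_range.2 (by omega))
  calc x ^ i * ‖iteratedDeriv i (Tf (hW (tw U t))) x‖ * (1 + x) ^ 4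
      ≤ (1 + x) ^ n * ‖iteratedDeriv i (Tf (hW (tw U t))) x‖ * (1 + x) ^ 4 := by
        gcongr
        calc x ^ i ≤ (1 + x) ^ i := pow_le_pow_left₀ hx (by linarith) i
          _ ≤ (1 + x) ^ n := pow_le_pow_right₀ (by linarith) hi
    _ = (1 + x) ^ (n + 4) * ‖iteratedDeriv i (Tf (hW (tw U t))) x‖ := by ring
    _ ≤ Cf i * (1 + |t|) ^ (n + 4) := h1
    _ ≤ _ := by gcongr

/-- **(K6)** bound of the tail -/
theorem tail_Phi {U : ℝ → ℂ} {a b : ℝ} (H : Nice U a b) {n : ℕ} (hn : 0 < n) : ∃ C : ℝ, 0 ≤ C ∧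
    ∀ (t K B Y : ℝ) (ν : O), 0 < K → 0 < B → 0 < Y → ν ≠ 0 →
      tail (Phi (tw U t) K B) Y ν ≤ C * (1 + |t|) ^ (n + 4) * B ^ 3 * ((kf ν * Y) ^ n)⁻¹ := by
  obtain ⟨C1, hC10, hC1⟩ := term_tail n hn
  obtain ⟨C2, hC20, hC2⟩ := Dc_Tf H n
  set s2 : ℝ := ∑' d : PD, (N (d : O) : ℝ) ^ (-(2 : ℝ)) with hs
  have hs0 : 0 ≤ s2 := tsum_nonneg fun d => by positivity
  refine ⟨C1 * C2 * s2, by positivity, ?_⟩
  intro t K B Y ν hK hB hY hν
  have hk := kf_pos hν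
  have h1 : ∀ d : PD, (N (d : O) : ℝ) *
      ‖∫ p, fd (Phi (tw U t) K B) (N (d : O)) p * En ν p.1 ∂(mH (km (Ioi Y)))‖ ≤
      (C1 * (C2 * (1 + |t|) ^ (n + 4)) * B ^ 3 * ((kf ν * Y) ^ n)⁻¹) *
        (N (d : O) : ℝ) ^ (-(2 : ℝ)) := by
    intro d
    have hd := N_pos_PD d
    have h2 := hC1 (tw U t) a b (H.tw t) _ (hC2 t) K B Y d ν hK hB hY hν
    calc _ ≤ (N (d : O) : ℝ) * (C1 * (C2 * (1 + |t|) ^ (n + 4)) * B ^ 3 * ((kf ν * Y) ^ n)⁻¹ *
        ((N (d : O) : ℝ) ^ 3)⁻¹) := by gcongr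
      _ = _ := by
        rw [Real.rpow_neg hd.le, Real.rpow_two]
        field_simp
  have h3 : tail (Phi (tw U t) K B) Y ν ≤ ∑' d : PD,
      (C1 * (C2 * (1 + |t|) ^ (n + 4)) * B ^ 3 * ((kf ν * Y) ^ n)⁻¹) *
        (N (d : O) : ℝ) ^ (-(2 : ℝ)) :=
    Summable.tsum_le_tsum h1 (summable_tail (CLf_Phi (H.tw t) hK hB) hY.le ν)
      ((summable_PD (β := 2) (by norm_num)).mul_left _)
  refine h3.trans (le_of_eq ?_)
  rw [tsum_mul_left]
  ring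

end Vale.Agent.P006.FC
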