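import Vale.Agent.P006.H2.Tail3
import Vale.Agent.P006.H9.Count

/-!
P006, block FC: the coefficient formula and the two-scale mean-square inequality.
-/

open MeasureTheory Set Filter
open scoped Topology ContDiff

namespace Vale.Agent.P006.FC

open Vale.Agent.P006.KER (Nice Phi tw hmeas Tf hW)

/-- Fourier coefficients of `FS (Phi W K B)`, as a convergent series -/
theorem hasSum_Phi {W : ℝ → ℂ} {a b : ℝ} (H : Nice W a b) {K B : ℝ} (hK : 0 < K) (hB : 0 < B)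
    {ν : O} (hν : ν ≠ 0) (d : PD) :
    ∫ p, fd (Phi W K B) (N (d : O)) p * En ν p.1 ∂(mH (km (Ioi 0))) =
      (((K / kf ν) ^ 3 : ℝ) : ℂ) * W (N (d : O) / (B * kf ν / K)) := by
  have h1 := (KER.kernel H hK hB (N_pos_PD d) (mun_ne hν)).2
  have hk := kf_pos hν
  have e1 : (fun p : ℂ × ℝ => fd (Phi W K B) (N (d : O)) p * En ν p.1) = fun p : ℂ × ℝ =>
      KER.chr (mun ν) p.1 * Phi W K B (2 * (N (d : O)) * KER.R3 p) := by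
    funext p
    rw [fd_eq, En_eq_chr, mul_comm]
  rw [e1, ← hmeas_eq, h1]
  have e2 : 4 * Real.pi * ‖mun ν‖ = kf ν := rfl
  rw [e2]
  congr 2
  field_simp

lemma Nice.bdd {W : ℝ → ℂ} {a b : ℝ} (H : Nice W a b) : ∃ C : ℝ, 0 ≤ C ∧ ∀ x, ‖W x‖ ≤ C := by
  obtain ⟨C, hC⟩ := H.hcs.exists_bound_of_continuous H.cont
  exact ⟨C, (norm_nonneg _).trans (hC 0), hC⟩

/-- summability of the finite sum `Sg` -/
theorem summable_Sg {W : ℝ → ℂ} {a b : ℝ} (H : Nice W a b) (ν : O) {Y : ℝ} (hY : 0 < Y) :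
    Summable fun d : PD => gs ν d * W (N (d : O) / Y) := by
  obtain ⟨C, hC0, hC⟩ := Nice.bdd H
  have hb : 0 < b := H.pos.trans_le H.le
  refine Summable.of_norm_bounded (g := fun d : PD => C * (b * Y) ^ (3 : ℝ) *
    (N (d : O) : ℝ) ^ (-(2 : ℝ))) ((summable_PD (β := 2) (by norm_num)).mul_left _) fun d => ?_
  have hd := N_pos_PD d
  rw [norm_mul]
  rcases le_or_gt ((N (d : O) : ℝ)) (b * Y) with h | h
  · have h1 : ((N (d : O) : ℝ)) ≤ (b * Y) ^ (3 : ℝ) * (N (d : O) : ℝ) ^ (-(2 : ℝ)) := by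
      rw [Real.rpow_neg hd.le, ← div_eq_mul_inv, le_div_iff₀ (by positivity)]
      calc (N (d : O) : ℝ) * (N (d : O) : ℝ) ^ (2 : ℝ) = (N (d : O) : ℝ) ^ (3 : ℝ) := by
            rw [Real.rpow_two, ← Real.rpow_natCast]
            have : (3 : ℝ) = ((3 : ℕ) : ℝ) := by norm_num
            rw [this, Real.rpow_natCast, Real.rpow_natCast]; ring
        _ ≤ (b * Y) ^ (3 : ℝ) := Real.rpow_le_rpow hd.le h (by norm_num)
    calc ‖gs ν d‖ * ‖W (N (d : O) / Y)‖ ≤ (N (d : O) : ℝ) * C := by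
          gcongr
          · exact norm_gs_le ν d
          · exact hC _
      _ ≤ ((b * Y) ^ (3 : ℝ) * (N (d : O) : ℝ) ^ (-(2 : ℝ))) * C := by gcongr
      _ = _ := by ring
  · rw [H.eq_zero_of_ge (by rw [lt_div_iff₀ hY]; exact h), norm_zero, mul_zero]
    positivity

/-- Fourier coefficients of `F_h` -/
theorem coeff_hh {U U0 : ℝ → ℂ} {a b a0 b0 : ℝ} (H : Nice U a b) (H0 : Nice U0 a0 b0)
    {t K B B0 : ℝ} (hK : 0 < K) (hB : 0 < B) (hB0 : 0 < B0) {ν : O} (hν : ν ≠ 0) :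
    ∫ p, FS (hh U U0 t K B B0) p * En ν p.1 ∂(mB (km (Ioi 0))) =
      (((K / kf ν) ^ 3 : ℝ) : ℂ) * (Sg (tw U t) ν (B * kf ν / K) -
        cc U U0 t B B0 * Sg U0 ν (B0 * kf ν / K)) := by
  have hk := kf_pos hν
  have c1 := CLf_Phi (H.tw t) hK hB
  have c2 := CLf_Phi H0 hK hB0
  have hc : CLf (hh U U0 t K B B0) := c1.sub_const_mul c2 _
  have h1 := hasSum_coeff' hc (le_refl (Ioi (0 : ℝ))) ν
  have h2 : ∀ d : PD, gs ν d * ∫ p, fd (hh U U0 t K B B0) (N (d : O)) p * En ν p.1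
      ∂(mH (km (Ioi 0))) = (((K / kf ν) ^ 3 : ℝ) : ℂ) * (gs ν d * tw U t (N (d : O) /
        (B * kf ν / K)) - cc U U0 t B B0 * (gs ν d * U0 (N (d : O) / (B0 * kf ν / K)))) := by
    intro d
    have e : ∫ p, fd (hh U U0 t K B B0) (N (d : O)) p * En ν p.1 ∂(mH (km (Ioi 0))) =
        ∫ p, fd (Phi (tw U t) K B) (N (d : O)) p * En ν p.1 ∂(mH (km (Ioi 0))) -
        cc U U0 t B B0 * ∫ p, fd (Phi U0 K B0) (N (d : O)) p * En ν p.1 ∂(mH (km (Ioi 0))) := by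
      rw [← integral_const_mul, ← integral_sub (integrable_fd_En c1 (le_refl _) d ν)
        ((integrable_fd_En c2 (le_refl _) d ν).const_mul _)]
      congr 1; funext p
      simp only [fd, hh]
      ring
    rw [e, hasSum_Phi (H.tw t) hK hB hν, hasSum_Phi H0 hK hB0 hν]
    ring
  simp_rw [h2] at h1
  have s1 := summable_Sg (H.tw t) ν (Y := B * kf ν / K) (by positivity)
  have s2 := summable_Sg H0 ν (Y := B0 * kf ν / K) (by positivity)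
  have h3 := ((s1.hasSum.sub (s2.hasSum.mul_left (cc U U0 t B B0))).mul_left
    (((K / kf ν) ^ 3 : ℝ) : ℂ))
  exact h1.unique h3

lemma norm_toC_lam : ‖toC lam‖ = √3 := by
  rw [norm_toC]
  congr 1

lemma kf_eq (ν : O) : kf ν = 4 * Real.pi / (3 * √3) * ‖toC ν‖ := by
  rw [kf, mun, norm_neg, norm_div, norm_pow, norm_toC_lam]
  have h3 : √3 ^ 3 = 3 * √3 := by
    rw [pow_succ, Real.sq_sqrt (by norm_num)]
  rw [h3]; ring

lemma sqrt3_lt : √3 < 1.7321 := by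
  rw [Real.sqrt_lt' (by norm_num)]; norm_num

lemma kf_ge_one {ν : O} (hν : ν ≠ 0) : 2 ≤ kf ν := by
  have h1 : 1 ≤ ‖toC ν‖ := by
    rw [norm_toC]
    rw [Real.one_le_sqrt]
    exact_mod_cast N_pos hν
  have h2 : (2 : ℝ) ≤ 4 * Real.pi / (3 * √3) := by
    rw [le_div_iff₀ (by positivity)]
    have := Real.pi_gt_three
    have := sqrt3_lt
    linarith
  rw [kf_eq]
  nlinarith [Real.pi_pos]

lemma norm_le_kf (ν : O) : ‖toC ν‖ ≤ kf ν := by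
  have h2 : (1 : ℝ) ≤ 4 * Real.pi / (3 * √3) := by
    rw [le_div_iff₀ (by positivity)]
    have := Real.pi_gt_three
    have := sqrt3_lt
    linarith
  rw [kf_eq]
  nlinarith [norm_nonneg (toC ν)]

/-- number of frequencies with `k_ν ≤ 2K` -/
theorem card_freq_le {K : ℝ} (hK : 0 ≤ K) (S : Finset O) (hS : ∀ ν ∈ S, kf ν ≤ 2 * K) :
    (S.card : ℝ) ≤ 8 * (1 + (2 * K) ^ 2) := by
  refine H9.card_disc (z0 := 0) (by positivity) S fun ν hν => ?_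
  rw [sub_zero, Complex.normSq_eq_norm_sq]
  exact pow_le_pow_left₀ (norm_nonneg _) ((norm_le_kf ν).trans (hS ν hν)) 2

/-- bound of the Mellin transform -/
lemma norm_mellin_le {U : ℝ → ℂ} {a b : ℝ} (H : Nice U a b) (σ : ℝ) : ∃ C : ℝ, 0 ≤ C ∧ ∀ t : ℝ,
    ‖mellin U ((σ : ℂ) + t * Complex.I)‖ ≤ C := by
  refine ⟨∫ x in Ioi (0 : ℝ), x ^ (σ - 1) * ‖U x‖, ?_, fun t => ?_⟩
  · refine setIntegral_nonneg measurableSet_Ioi fun x hx => ?_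
    have : (0 : ℝ) < x := hx
    positivity
  · rw [mellin]
    refine (norm_integral_le_integral_norm _).trans (le_of_eq ?_)
    refine setIntegral_congr_fun measurableSet_Ioi fun x hx => ?_
    have hx' : (0 : ℝ) < x := hx
    simp only [norm_smul, Complex.norm_cpow_eq_rpow_re_of_pos hx']
    simp

/-- bound of the comparison constant -/
lemma norm_cc_le {U U0 : ℝ → ℂ} {a b : ℝ} (H : Nice U a b) : ∃ C : ℝ, 0 ≤ C ∧
    ∀ t B B0 : ℝ, 0 < B → B ≤ B0 → ‖cc U U0 t B B0‖ ≤ C * (B / B0) ^ (4 / 3 : ℝ) := by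
  obtain ⟨C, hC0, hC⟩ := norm_mellin_le H (4 / 3)
  refine ⟨C / ‖mellin U0 (4 / 3 : ℂ)‖, by positivity, fun t B B0 hB hBB => ?_⟩
  have hB0 : 0 < B0 := hB.trans_le hBB
  rw [cc, norm_mul, Complex.norm_real, norm_div, Real.norm_of_nonneg (by positivity), mul_comm]
  have h1 := hC t
  have e : (((4 / 3 : ℝ) : ℝ) : ℂ) = (4 / 3 : ℂ) := by push_cast; rfl
  rw [e] at h1
  gcongr

/-- arithmetic of the main part -/
lemma main_arith {C1 z K B T : ℝ} (hC1 : 0 ≤ C1) (hz : 1 ≤ z) (hK : 0 < K) (hT : 0 < T) :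
    C1 * z * (K ^ 4 * B ^ 2 / T) * ((z * T / K) ^ 4 + (z * T / K) ^ 2) ≤
      C1 * z ^ 5 * (B ^ 2 * (K ^ 2 * T + T ^ 3)) := by
  have e2 : C1 * z * (K ^ 4 * B ^ 2 / T) * ((z * T / K) ^ 4 + (z * T / K) ^ 2) =
      C1 * (B ^ 2 * (z ^ 5 * T ^ 3 + z ^ 3 * (K ^ 2 * T))) := by
    field_simp
  rw [e2]
  have h4 : z ^ 3 ≤ z ^ 5 := pow_le_pow_right₀ hz (by norm_num)
  calc C1 * (B ^ 2 * (z ^ 5 * T ^ 3 + z ^ 3 * (K ^ 2 * T)))
      ≤ C1 * (B ^ 2 * (z ^ 5 * T ^ 3 + z ^ 5 * (K ^ 2 * T))) := by gcongr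
    _ = _ := by ring

/-- tails of `hh` -/
lemma tail_hh {U U0 : ℝ → ℂ} {a b a0 b0 : ℝ} (H : Nice U a b) (H0 : Nice U0 a0 b0) {ε1 : ℝ}
    (hε1 : 0 < ε1) : ∃ C : ℝ, 0 ≤ C ∧ ∀ (t K B B0 Z : ℝ) (ν : O), 0 < K → 0 < B → B ≤ B0 →
      B0 ≤ Z → 1 + |t| ≤ Z → ν ≠ 0 → K ≤ kf ν →
      tail (hh U U0 t K B B0) (Z ^ ε1 * (1 + |t|) / K) ν ≤ C * Z⁻¹ := by
  obtain ⟨n, hn⟩ := exists_nat_gt (8 / ε1)
  have hn0 : 0 < n := by
    have : (0 : ℝ) < n := lt_trans (by positivity) hn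
    exact_mod_cast this
  have hnε : 8 ≤ n * ε1 := by
    have := (div_lt_iff₀ hε1).1 hn
    linarith
  obtain ⟨C2, hC20, hC2⟩ := tail_Phi H hn0
  obtain ⟨C3, hC30, hC3⟩ := tail_Phi H0 hn0
  obtain ⟨C4, hC40, hC4⟩ := norm_cc_le (U0 := U0) H
  refine ⟨C2 + C4 * C3, by positivity, ?_⟩
  intro t K B B0 Z ν hK hB hBB hBZ htZ hν hKk
  have hB00 : 0 < B0 := hB.trans_le hBB
  set T : ℝ := 1 + |t| with hT
  have hT1 : 1 ≤ T := by rw [hT]; linarith [abs_nonneg t]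
  have hZ1 : 1 ≤ Z := hT1.trans htZ
  have hZ0 : 0 < Z := by linarith
  have hT0 : 0 < T := by linarith
  have hcc : ‖cc U U0 t B B0‖ ≤ C4 := by
    refine (hC4 t B B0 hB hBB).trans (mul_le_of_le_one_right hC40 ?_)
    refine Real.rpow_le_one (by positivity) ?_ (by norm_num)
    rw [div_le_one hB00]; exact hBB
  set Y : ℝ := Z ^ ε1 * T / K with hY
  have hY0 : 0 < Y := by positivity
  have hk := kf_pos hν
  have t1 := hC2 t K B Y ν hK hB hY0 hν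
  have t2 := hC3 0 K B0 Y ν hK hB00 hY0 hν
  have e0 : tw U0 0 = U0 := by funext s; unfold tw; simp
  rw [e0] at t2
  have t3 := tail_sub_le (CLf_Phi (H.tw t) hK hB) (CLf_Phi H0 hK hB00)
    (cc U U0 t B B0) hY0.le ν
  have hkY : Z ^ ε1 * T ≤ kf ν * Y := by
    rw [hY]
    calc Z ^ ε1 * T = K * (Z ^ ε1 * T / K) := by field_simp
      _ ≤ kf ν * (Z ^ ε1 * T / K) := by gcongr
  have hZn : Z ^ 8 ≤ (Z ^ ε1) ^ n := by
    rw [← Real.rpow_natCast Z 8, ← Real.rpow_natCast (Z ^ ε1) n, ← Real.rpow_mul hZ0.le]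
    refine Real.rpow_le_rpow_of_exponent_le hZ1 ?_
    push_cast
    linarith
  have hZT : Z ^ 8 * T ^ n ≤ (kf ν * Y) ^ n := by
    calc Z ^ 8 * T ^ n ≤ (Z ^ ε1) ^ n * T ^ n := by gcongr
      _ = (Z ^ ε1 * T) ^ n := by rw [mul_pow]
      _ ≤ _ := by gcongr
  have hpos : 0 < (kf ν * Y) ^ n := by positivity
  have t4 : C2 * T ^ (n + 4) * B ^ 3 * ((kf ν * Y) ^ n)⁻¹ ≤ C2 * Z⁻¹ := by
    rw [← div_eq_mul_inv, div_le_iff₀ hpos]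
    calc C2 * T ^ (n + 4) * B ^ 3 = C2 * (T ^ 4 * B ^ 3) * T ^ n := by ring
      _ ≤ C2 * (Z ^ 4 * Z ^ 3) * T ^ n := by
          have : B ≤ Z := hBB.trans hBZ
          gcongr
      _ = C2 * Z⁻¹ * (Z ^ 8 * T ^ n) := by field_simp
      _ ≤ C2 * Z⁻¹ * (kf ν * Y) ^ n := by gcongr
  have t5 : C3 * (1 + |(0 : ℝ)|) ^ (n + 4) * B0 ^ 3 * ((kf ν * Y) ^ n)⁻¹ ≤ C3 * Z⁻¹ := by
    rw [abs_zero, add_zero, one_pow, mul_one, ← div_eq_mul_inv, div_le_iff₀ hpos]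
    calc C3 * B0 ^ 3 ≤ C3 * Z ^ 3 := by gcongr
      _ ≤ C3 * Z ^ 7 := by gcongr; norm_num
      _ = C3 * Z⁻¹ * (Z ^ 8 * 1) := by field_simp
      _ ≤ C3 * Z⁻¹ * (Z ^ 8 * T ^ n) := by
          gcongr
          exact one_le_pow₀ hT1
      _ ≤ C3 * Z⁻¹ * (kf ν * Y) ^ n := by gcongr
  calc tail (hh U U0 t K B B0) Y ν
      ≤ tail (Phi (tw U t) K B) Y ν + ‖cc U U0 t B B0‖ * tail (Phi U0 K B0) Y ν := t3
    _ ≤ C2 * Z⁻¹ + C4 * (C3 * Z⁻¹) := by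
        refine add_le_add (t1.trans t4) ?_
        exact mul_le_mul hcc (t2.trans t5) (tail_nonneg _ _ _) hC40
    _ = _ := by ring

/-- sum of the tails -/
lemma sum_tail_hh {U U0 : ℝ → ℂ} {a b a0 b0 : ℝ} (H : Nice U a b) (H0 : Nice U0 a0 b0) {ε1 : ℝ}
    (hε1 : 0 < ε1) : ∃ C : ℝ, 0 ≤ C ∧ ∀ (t K B B0 Z : ℝ), 0 < K → 0 < B → B ≤ B0 → K ≤ Z →
      B0 ≤ Z → 1 + |t| ≤ Z → ∀ S : Finset O, (∀ ν ∈ S, ν ≠ 0 ∧ K ≤ kf ν ∧ kf ν ≤ 2 * K) →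
      ∑ ν ∈ S, tail (hh U U0 t K B B0) (Z ^ ε1 * (1 + |t|) / K) ν ^ 2 ≤ C := by
  obtain ⟨C, hC0, hC⟩ := tail_hh H H0 hε1
  refine ⟨8 * 5 * C ^ 2, by positivity, ?_⟩
  intro t K B B0 Z hK hB hBB hKZ hBZ htZ S hS
  have hZ1 : 1 ≤ Z := le_trans (by linarith [abs_nonneg t]) htZ
  have hZ0 : 0 < Z := by linarith
  have hcard := card_freq_le hK.le S fun ν hν => (hS ν hν).2.2
  calc ∑ ν ∈ S, tail (hh U U0 t K B B0) (Z ^ ε1 * (1 + |t|) / K) ν ^ 2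
      ≤ ∑ ν ∈ S, (C * Z⁻¹) ^ 2 :=
        Finset.sum_le_sum fun ν hν => pow_le_pow_left₀ (tail_nonneg _ _ _)
          (hC t K B B0 Z ν hK hB hBB hBZ htZ (hS ν hν).1 (hS ν hν).2.1) 2
    _ = (S.card : ℝ) * (C * Z⁻¹) ^ 2 := by rw [Finset.sum_const, nsmul_eq_mul]
    _ ≤ (8 * (1 + (2 * K) ^ 2)) * (C * Z⁻¹) ^ 2 := by gcongr
    _ ≤ (8 * (5 * Z ^ 2)) * (C * Z⁻¹) ^ 2 := by
        have : 1 + (2 * K) ^ 2 ≤ 5 * Z ^ 2 := by nlinarith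
        gcongr
    _ = _ := by field_simp

/-- the coefficient of `F_h` controls the difference of the smooth sums -/
lemma diff_le_coeff {U U0 : ℝ → ℂ} {a b a0 b0 : ℝ} (H : Nice U a b) (H0 : Nice U0 a0 b0)
    {t K B B0 : ℝ} (hK : 0 < K) (hB : 0 < B) (hB0 : 0 < B0) {ν : O} (hν : ν ≠ 0)
    (hk2 : kf ν ≤ 2 * K) :
    ‖Sg (tw U t) ν (B * kf ν / K) - cc U U0 t B B0 * Sg U0 ν (B0 * kf ν / K)‖ ^ 2 ≤
      64 * ‖∫ p, FS (hh U U0 t K B B0) p * En ν p.1 ∂(mB (km (Ioi 0)))‖ ^ 2 := by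
  have hk := kf_pos hν
  rw [coeff_hh H H0 hK hB hB0 hν, norm_mul, Complex.norm_real,
    Real.norm_of_nonneg (by positivity), mul_pow]
  generalize ‖Sg (tw U t) ν (B * kf ν / K) - cc U U0 t B B0 * Sg U0 ν (B0 * kf ν / K)‖ = X
  have h2 : 1 / 2 ≤ K / kf ν := by
    rw [div_le_div_iff₀ (by norm_num) hk]; linarith
  have h3 : (1 : ℝ) / 64 ≤ ((K / kf ν) ^ 3) ^ 2 := by
    calc (1 : ℝ) / 64 = ((1 / 2) ^ 3) ^ 2 := by norm_num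
      _ ≤ _ := by gcongr
  nlinarith [sq_nonneg X]

/-- **two-scale inequality** -/
theorem two_scale (hHS : HSHyp) {U U0 : ℝ → ℂ} {a b a0 b0 : ℝ} (H : Nice U a b)
    (H0 : Nice U0 a0 b0) (hm : mellin U0 (4 / 3 : ℂ) ≠ 0) {ε : ℝ} (hε : 0 < ε) {δ : ℝ}
    (hδ : 0 < δ) : ∃ C : ℝ, 0 ≤ C ∧ ∀ t K B B0 Z : ℝ, δ ≤ K → δ ≤ B → B ≤ B0 → K ≤ Z → B0 ≤ Z →
      1 + |t| ≤ Z → ∀ S : Finset O, (∀ ν ∈ S, ν ≠ 0 ∧ K ≤ kf ν ∧ kf ν ≤ 2 * K) →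
      ∑ ν ∈ S, ‖Sg (tw U t) ν (B * kf ν / K) - cc U U0 t B B0 * Sg U0 ν (B0 * kf ν / K)‖ ^ 2 ≤
        C * Z ^ ε * (B ^ 2 * (K ^ 2 * (1 + |t|) + (1 + |t|) ^ 3)) := by
  have hε10 : 0 < ε / 5 := by positivity
  obtain ⟨C1, hC10, hC1⟩ := hHS U a b U0 a0 b0 H H0 hm (ε / 5) hε10 δ hδ
  obtain ⟨C2, hC20, hC2⟩ := sum_tail_hh H H0 hε10
  refine ⟨64 * (2 * (volume.real B * C1) + 2 * C2 * (δ ^ 2)⁻¹), by positivity, ?_⟩
  intro t K B' B0 Z hK hB hBB hKZ hBZ htZ S hS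
  have hK0 : 0 < K := hδ.trans_le hK
  have hB0 : 0 < B' := hδ.trans_le hB
  have hB00 : 0 < B0 := hB0.trans_le hBB
  have hT1 : 1 ≤ 1 + |t| := by linarith [abs_nonneg t]
  have hZ1 : 1 ≤ Z := hT1.trans htZ
  have hZ0 : 0 < Z := by linarith
  have hT0 : 0 < 1 + |t| := by linarith
  have hcl : CLf (hh U U0 t K B' B0) :=
    (CLf_Phi (H.tw t) hK0 hB0).sub_const_mul (CLf_Phi H0 hK0 hB00) _
  have hA0 : 0 ≤ C1 * Z ^ (ε / 5) * (K ^ 4 * B' ^ 2 / (1 + |t|)) := by positivity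
  have hY0 : 0 < Z ^ (ε / 5) * (1 + |t|) / K := by positivity
  have hmain := basic_ineq hcl hA0 (hC1 t K B' B0 Z hK hB hBB hKZ hBZ htZ) hY0 S
  have hTs := hC2 t K B' B0 Z hK0 hB0 hBB hKZ hBZ htZ S hS
  have h2 : ∑ ν ∈ S, ‖Sg (tw U t) ν (B' * kf ν / K) - cc U U0 t B' B0 *
      Sg U0 ν (B0 * kf ν / K)‖ ^ 2 ≤
      64 * ∑ ν ∈ S, ‖∫ p, FS (hh U U0 t K B' B0) p * En ν p.1 ∂(mB (km (Ioi 0)))‖ ^ 2 := by
    rw [Finset.mul_sum]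
    exact Finset.sum_le_sum fun ν hν =>
      diff_le_coeff H H0 hK0 hB0 hB00 (hS ν hν).1 (hS ν hν).2.2
  have hM := main_arith (B := B') hC10 (Real.one_le_rpow hZ1 hε10.le) hK0 hT0
  have e1 : (Z ^ (ε / 5)) ^ 5 = Z ^ ε := by
    rw [← Real.rpow_natCast, ← Real.rpow_mul hZ0.le]
    congr 1; push_cast; ring
  rw [e1] at hM
  have hlow : 1 ≤ (δ ^ 2)⁻¹ * (Z ^ ε * (B' ^ 2 * (K ^ 2 * (1 + |t|) + (1 + |t|) ^ 3))) := by
    rw [← div_eq_inv_mul, one_le_div (by positivity)]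
    have h5 : 1 ≤ Z ^ ε := Real.one_le_rpow hZ1 hε.le
    have h6 : (1 : ℝ) ≤ K ^ 2 * (1 + |t|) + (1 + |t|) ^ 3 := by
      have : 0 ≤ K ^ 2 * (1 + |t|) := by positivity
      have h7 : (1 : ℝ) ≤ (1 + |t|) ^ 3 := one_le_pow₀ hT1
      linarith
    calc δ ^ 2 = 1 * (δ ^ 2 * 1) := by ring
      _ ≤ Z ^ ε * (B' ^ 2 * (K ^ 2 * (1 + |t|) + (1 + |t|) ^ 3)) := by gcongr
  generalize hP : B' ^ 2 * (K ^ 2 * (1 + |t|) + (1 + |t|) ^ 3) = P at *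
  generalize hQ : ∑ ν ∈ S, ‖∫ p, FS (hh U U0 t K B' B0) p * En ν p.1 ∂(mB (km (Ioi 0)))‖ ^ 2 = Q
    at *
  generalize hR : ∑ ν ∈ S, tail (hh U U0 t K B' B0) (Z ^ (ε / 5) * (1 + |t|) / K) ν ^ 2 = R at *
  generalize hV : volume.real B = V at *
  have hV0 : 0 ≤ V := by rw [← hV]; exact measureReal_nonneg
  have h7 : V * (C1 * Z ^ (ε / 5) * (K ^ 4 * B' ^ 2 / (1 + |t|))) *
      ((Z ^ (ε / 5) * (1 + |t|) / K) ^ 4 + (Z ^ (ε / 5) * (1 + |t|) / K) ^ 2) ≤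
      V * (C1 * Z ^ ε * P) := by
    rw [mul_assoc]
    exact mul_le_mul_of_nonneg_left hM hV0
  calc _ ≤ 64 * Q := h2
    _ ≤ 64 * (2 * (V * (C1 * Z ^ ε * P)) + 2 * (C2 * ((δ ^ 2)⁻¹ * (Z ^ ε * P)))) := by
        refine mul_le_mul_of_nonneg_left (hmain.trans ?_) (by norm_num)
        have h8 : R ≤ C2 * ((δ ^ 2)⁻¹ * (Z ^ ε * P)) :=
          hTs.trans (le_mul_of_one_le_right hC20 hlow)
        linarith
    _ = _ := by ring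

end Vale.Agent.P006.FC
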