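import Mathlib.MeasureTheory.Integral.Prod
import Mathlib.MeasureTheory.Measure.Prod
import Vale.Agent.P006.H2.Lattice
import Vale.Agent.P006.CR.Symbol

/-!
P006, block FC: unfolding of the Fourier coefficients of `E_f(S(z,y))`.
-/

open MeasureTheory Set

namespace Vale.Agent.P006.FC

section Fold

variable {Y : Type*} [MeasurableSpace Y] {κ : Measure Y} [SFinite κ]

lemma mp_shift (w : ℂ) : MeasurePreserving (fun p : ℂ × Y => (p.1 - w, p.2))
    ((volume : Measure ℂ).prod κ) ((volume : Measure ℂ).prod κ) :=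
  (measurePreserving_sub_right volume w).prod (MeasurePreserving.id κ)

lemma integrable_shift {Ψ : ℂ × Y → ℂ} (hΨ : Integrable Ψ ((volume : Measure ℂ).prod κ)) (w : ℂ) :
    Integrable (fun p : ℂ × Y => Ψ (p.1 - w, p.2)) ((volume : Measure ℂ).prod κ) :=
  (mp_shift w).integrable_comp_of_integrable hΨ

lemma restrict_prod_eq : ((volume : Measure ℂ).restrict B).prod κ =
    ((volume : Measure ℂ).prod κ).restrict (B ×ˢ univ) := by
  conv_lhs => rw [← Measure.restrict_univ (μ := κ)]
  rw [Measure.prod_restrict]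

lemma integrable_B {Ψ : ℂ × Y → ℂ} (hΨ : Integrable Ψ ((volume : Measure ℂ).prod κ)) :
    Integrable Ψ (((volume : Measure ℂ).restrict B).prod κ) := by
  rw [restrict_prod_eq]
  exact hΨ.restrict

/-- two variable folding -/
theorem hasSum_fold2 {Ψ : ℂ × Y → ℂ} (hΨ : Integrable Ψ ((volume : Measure ℂ).prod κ)) :
    HasSum (fun t : O => ∫ p, Ψ (p.1 - 3 * toC t, p.2) ∂(((volume : Measure ℂ).restrict B).prod κ))
      (∫ p, Ψ p ∂((volume : Measure ℂ).prod κ)) := by
  have h := hasSum_fold hΨ.integral_prod_left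
  rw [← integral_prod _ hΨ] at h
  have e : (fun t : O => ∫ p, Ψ (p.1 - 3 * toC t, p.2)
      ∂(((volume : Measure ℂ).restrict B).prod κ)) =
      (fun t : O => ∫ z in B, ∫ y, Ψ (z - 3 * toC t, y) ∂κ) := by
    funext t
    rw [integral_prod _ (integrable_B (integrable_shift hΨ (3 * toC t)))]
  rw [e]
  exact h

/-- the map `(x,t) ↦ rep x + d t` -/
noncomputable def rep (d : O) (x : Rs d) : O := Function.surjInv (rs_surj d) x

lemma rs_rep (d : O) (x : Rs d) : rs d (rep d x) = x := Function.surjInv_eq (rs_surj d) x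

/-- a function on `O` periodic mod `d`, summed against a shifted integrable function -/
theorem hasSum_periodic {d : O} (hd : d ≠ 0) {b : O → ℂ}
    (hb : ∀ m t : O, b (m + d * t) = b m) {Ψ : ℂ × Y → ℂ}
    (hΨ : Integrable Ψ ((volume : Measure ℂ).prod κ)) :
    HasSum (fun m : O => ∫ p, b m * Ψ (p.1 - 3 * toC m / toC d, p.2)
        ∂(((volume : Measure ℂ).restrict B).prod κ))
      ((∑' x : Rs d, b (rep d x)) * ∫ p, Ψ p ∂((volume : Measure ℂ).prod κ)) := by
  classical
  have : NeZero d := ⟨hd⟩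
  have hd' : toC d ≠ 0 := by simpa using hd
  rw [tsum_fintype, Finset.sum_mul]
  set F : O → ℂ := fun m : O => ∫ p, b m * Ψ (p.1 - 3 * toC m / toC d, p.2)
        ∂(((volume : Measure ℂ).restrict B).prod κ) with hF
  have key : ∀ x : Rs d, HasSum (fun m : O => if rs d m = x then F m else 0)
      (b (rep d x) * ∫ p, Ψ p ∂((volume : Measure ℂ).prod κ)) := by
    intro x
    have hinj : Function.Injective (fun t : O => rep d x + d * t) := by
      intro s t hst
      exact mul_left_cancel₀ hd (add_left_cancel hst)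
    rw [← hinj.hasSum_iff]
    · have h1 := hasSum_fold2 (integrable_shift hΨ (3 * toC (rep d x) / toC d))
      have h2 := h1.mul_left (b (rep d x))
      rw [show ∫ p, Ψ (p.1 - 3 * toC (rep d x) / toC d, p.2) ∂((volume : Measure ℂ).prod κ) =
        ∫ p, Ψ p ∂((volume : Measure ℂ).prod κ) from
          (mp_shift (3 * toC (rep d x) / toC d)).integral_comp'
            (f := ((MeasurableEquiv.subRight (3 * toC (rep d x) / toC d)).prodCongr
              (MeasurableEquiv.refl Y))) Ψ] at h2
      have e : (fun m : O => if rs d m = x then F m else 0) ∘ (fun t : O => rep d x + d * t) =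
          fun t : O => b (rep d x) * ∫ p, Ψ (p.1 - 3 * toC t - 3 * toC (rep d x) / toC d, p.2)
            ∂(((volume : Measure ℂ).restrict B).prod κ) := by
        funext t
        have e1 : rs d (rep d x + d * t) = x := by
          rw [map_add, map_mul, rs_rep, rs_eq_zero.2 dvd_rfl]; ring
        simp only [Function.comp_apply, e1, if_true, hF]
        rw [← integral_const_mul, hb]
        congr 1
        funext p
        congr 3
        rw [map_add, map_mul]
        field_simp
        ring
      rw [e]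
      exact h2
    · intro m hm
      rw [if_neg]
      intro h
      apply hm
      rw [← rs_rep d x, rs_eq] at h
      obtain ⟨t, ht⟩ := h
      exact ⟨t, by simp only; rw [← ht]; ring⟩
  have h := hasSum_sum (s := Finset.univ) (fun x _ => key x)
  simpa using h

/-- norm version of `hasSum_periodic` -/
theorem hasSum_periodic_norm {d : O} (hd : d ≠ 0) {b : O → ℂ}
    (hb : ∀ m t : O, b (m + d * t) = b m) {Ψ : ℂ × Y → ℂ}
    (hΨ : Integrable Ψ ((volume : Measure ℂ).prod κ)) :
    HasSum (fun m : O => ∫ p, ‖b m * Ψ (p.1 - 3 * toC m / toC d, p.2)‖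
        ∂(((volume : Measure ℂ).restrict B).prod κ))
      ((∑' x : Rs d, ‖b (rep d x)‖) * ∫ p, ‖Ψ p‖ ∂((volume : Measure ℂ).prod κ)) := by
  have : NeZero d := ⟨hd⟩
  have h := hasSum_periodic hd (b := fun m => ((‖b m‖ : ℝ) : ℂ))
    (fun m t => by simp only [hb]) (Ψ := fun p => ((‖Ψ p‖ : ℝ) : ℂ)) hΨ.norm.ofReal
  have h2 := Complex.hasSum_re h
  rw [tsum_fintype] at h2 ⊢
  simp only [← Complex.ofReal_mul, integral_complex_ofReal, Complex.ofReal_re,
    ← Complex.ofReal_sum] at h2
  simpa only [norm_mul] using h2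

end Fold

/-! ### The frequency characters and the Gauss sums -/

/-- the character `z ↦ e(Tr(ν z / λ³))` of `ℂ/3O` -/
noncomputable def En (ν : O) (z : ℂ) : ℂ := e (TrC (toC ν * z / toC lam ^ 3))

lemma En_add (ν : O) (z w : ℂ) : En ν (z + w) = En ν z * En ν w := by
  rw [En, En, En, ← e_add, ← TrC_add, mul_add, add_div]

lemma norm_En (ν : O) (z : ℂ) : ‖En ν z‖ = 1 := norm_e _

lemma toC_lam_ne : toC lam ≠ 0 := by simpa using prime_lam.ne_zero

lemma toC_lam_cube : toC lam ^ 3 = 3 * toC (-om * lam) := by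
  have h : lam ^ 3 = 3 * (-om * lam) := by decide
  rw [← map_pow, h, map_mul, map_ofNat]

lemma En_three (ν t : O) : En ν (3 * toC t) = 1 := by
  have hl := toC_lam_ne
  have h1 : toC ν * (3 * toC t) / toC lam ^ 3 = toC (-om ^ 2 * ν * t) / toC lam := by
    rw [div_eq_div_iff (pow_ne_zero 3 hl) hl]
    have h : (3 : O) * lam = -om ^ 2 * lam ^ 3 := by decide
    have h' : (3 : ℂ) * toC lam = toC (-om ^ 2) * toC lam ^ 3 := by
      rw [← map_pow, ← map_mul, ← h, map_mul, map_ofNat]
    rw [map_mul, map_mul]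
    linear_combination (toC ν * toC t) * h'
  obtain ⟨n, hn⟩ := exists_TrC_div_lam (-om ^ 2 * ν * t)
  rw [En, h1, hn, e_int]

lemma En_periodic (ν t : O) (z : ℂ) : En ν (z + 3 * toC t) = En ν z := by
  rw [En_add, En_three, mul_one]

lemma continuous_En (ν : O) : Continuous (En ν) := by
  unfold En e TrC
  fun_prop

/-- the Gauss sum `g(ν,d) = ∑_{x mod d} (x/d)_3 e(Tr(ν x/d))` -/
noncomputable def gs (ν d : O) : ℂ := ∑' x : Rs d, chi d x * psi d (rs d ν * x)

/-- the periodic coefficient -/
noncomputable def cf (ν d m : O) : ℂ := toC (sym (3 * m) d) * En ν (3 * toC m / toC d)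

lemma cf_periodic {ν d : O} (hd : d ≠ 0) (m t : O) : cf ν d (m + d * t) = cf ν d m := by
  have hd' : toC d ≠ 0 := by simpa using hd
  unfold cf
  rw [sym_periodic (a := 3 * (m + d * t)) (a' := 3 * m) ⟨3 * t, by ring⟩]
  congr 1
  rw [← En_periodic ν t (3 * toC m / toC d)]
  congr 1
  rw [map_add, map_mul]
  field_simp

lemma norm_cf_le (ν d m : O) : ‖cf ν d m‖ ≤ 1 := by
  rw [cf, norm_mul, norm_En, mul_one]
  exact norm_sym_le _ _

/-- the total of the periodic coefficients is the Gauss sum -/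
theorem sum_cf {ν d : O} (hd : Primary d) : ∑' x : Rs d, cf ν d (rep d x) = gs ν d := by
  have hd0 : d ≠ 0 := hd.ne_zero
  have hd' : toC d ≠ 0 := by simpa using hd0
  have : NeZero d := ⟨hd0⟩
  have hcop : IsCoprime lam d := hd.isCoprime_lam
  have hu : IsUnit (rs d (-om * lam)) := by
    rw [isUnit_rs_iff]
    refine IsCoprime.mul_left ?_ hcop
    exact ⟨-om ^ 2, 0, by rw [zero_mul, add_zero]; decide⟩
  obtain ⟨u, hu⟩ := hu
  unfold gs
  rw [tsum_fintype, tsum_fintype]
  rw [← Equiv.sum_comp (Units.mulLeft u)]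
  refine Finset.sum_congr rfl fun x _ => ?_
  obtain ⟨m, rfl⟩ := rs_surj d x
  have e1 : cf ν d (rep d (Units.mulLeft u (rs d m))) = cf ν d (-om * lam * m) := by
    have h : rs d (rep d (Units.mulLeft u (rs d m))) = rs d (-om * lam * m) := by
      rw [rs_rep, Units.mulLeft_apply, hu, map_mul (rs d) (-om * lam) m]
    rw [rs_eq] at h
    obtain ⟨t, ht⟩ := h
    rw [← cf_periodic hd0 (-om * lam * m) t, ← ht]
    congr 1; ring
  rw [e1, cf, chi_rs, ← map_mul, psi_rs]
  have h3 : (3 : O) * (-om * lam * m) = lam ^ 3 * m := by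
    have : (3 : O) * (-om * lam) = lam ^ 3 := by decide
    rw [← mul_assoc, this]
  rw [h3, sym_mul_left, sym_pow_left, sym_cube hcop, one_mul]
  congr 1
  rw [En]
  congr 2
  have h5 : (3 : ℂ) * toC (-om * lam * m) = toC lam ^ 3 * toC m := by
    rw [toC_lam_cube, map_mul toC (-om * lam) m]; ring
  rw [h5, map_mul toC ν m]
  have := toC_lam_ne
  field_simp

end Vale.Agent.P006.FC
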